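import Mathlib
import Vale.Agent.P135.BU

/-!
The Brouwer fixed point theorem, from the Borsuk-Ulam theorem on a sphere.
-/

noncomputable section

open Set Metric
open scoped RealInnerProductSpace

namespace Vale.Agent.P371

namespace BrouwerAux

variable {n : ℕ}

/-- radial projection on the closed unit ball -/
def proj (y : Fin n → ℝ) : Fin n → ℝ := (max 1 ‖y‖)⁻¹ • y

lemma continuous_proj : Continuous (proj (n := n)) :=
  ((continuous_const.max continuous_norm).inv₀ fun _ =>
    (lt_of_lt_of_le one_pos (le_max_left _ _)).ne').smul continuous_id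

lemma norm_proj (y : Fin n → ℝ) : ‖proj y‖ = ‖y‖ / max 1 ‖y‖ := by
  rw [proj, norm_smul, norm_inv, Real.norm_eq_abs,
    abs_of_pos (lt_of_lt_of_le one_pos (le_max_left _ _)), inv_mul_eq_div]

lemma norm_proj_le (y : Fin n → ℝ) : ‖proj y‖ ≤ 1 := by
  rw [norm_proj, div_le_one (lt_of_lt_of_le one_pos (le_max_left _ _))]
  exact le_max_right _ _

/-- an extension of `x - f x` that is the identity on the unit sphere -/
def bend (f : (Fin n → ℝ) → (Fin n → ℝ)) (y : Fin n → ℝ) : Fin n → ℝ :=
  proj ((2 : ℝ) • y) - min 1 (2 - 2 * ‖y‖) • f (proj ((2 : ℝ) • y))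

lemma continuous_bend {f : (Fin n → ℝ) → (Fin n → ℝ)} (hf : Continuous f) :
    Continuous (bend f) := by
  have hp := (continuous_proj (n := n)).comp (continuous_const_smul (2 : ℝ))
  exact hp.sub ((continuous_const.min (continuous_const.sub
    (continuous_const.mul continuous_norm))).smul (hf.comp hp))

lemma bend_sphere (f : (Fin n → ℝ) → (Fin n → ℝ)) {y : Fin n → ℝ} (hy : ‖y‖ = 1) :
    bend f y = y := by
  simp [bend, proj, hy, norm_smul, smul_smul]

lemma exists_fixed_of_bend {f : (Fin n → ℝ) → (Fin n → ℝ)} (hmap : ∀ x, ‖f x‖ ≤ 1)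
    {y : Fin n → ℝ} (hy1 : ‖y‖ ≤ 1) (hy : bend f y = 0) : ∃ x, ‖x‖ ≤ 1 ∧ f x = x := by
  rw [bend, sub_eq_zero] at hy
  rcases le_or_gt (2 * ‖y‖) 1 with h | h
  · refine ⟨_, norm_proj_le ((2 : ℝ) • y), ?_⟩
    rw [min_eq_left (by linarith), one_smul] at hy
    exact hy.symm
  · exfalso
    have h1 : ‖proj ((2 : ℝ) • y)‖ = 1 := by
      rw [norm_proj, norm_smul, Real.norm_ofNat, max_eq_right h.le, div_self (by linarith)]
    rw [min_eq_right (by linarith)] at hy
    have h2 := congrArg norm hy
    rw [h1, norm_smul, Real.norm_eq_abs, abs_of_nonneg (by linarith)] at h2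
    nlinarith [hmap (proj ((2 : ℝ) • y)), norm_nonneg (f (proj ((2 : ℝ) • y)))]

/-- Brouwer's theorem on the cube. -/
theorem brouwer_cube (f : (Fin n → ℝ) → (Fin n → ℝ)) (hf : Continuous f)
    (hmap : ∀ x, ‖f x‖ ≤ 1) : ∃ x, ‖x‖ ≤ 1 ∧ f x = x := by
  let a : Fin 1 → ℕ := fun _ => n
  let G := bend f
  have hGc : Continuous G := continuous_bend hf
  -- coordinates of a point of the sphere
  let pre : P135.BU.Pt a → (Fin n → ℝ) := fun x i => x 0 i.castSucc
  let ht : P135.BU.Pt a → ℝ := fun x => x 0 (Fin.last n)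
  let H : P135.BU.Pt a → (Fin n → ℝ) := fun x => if 0 ≤ ht x then G (pre x) else -G (-pre x)
  have hpre_c : Continuous pre := by simp only [pre]; fun_prop
  have hht_c : Continuous ht := by simp only [ht]; fun_prop
  have hball : ∀ x ∈ P135.BU.prodSphere a, ‖pre x‖ ≤ 1 := fun x hx =>
    (pi_norm_le_iff_of_nonneg zero_le_one).2 fun i =>
      (norm_le_pi_norm (x 0) i.castSucc).trans (hx 0).le
  have hequ : ∀ x ∈ P135.BU.prodSphere a, ht x = 0 → ‖pre x‖ = 1 := by
    intro x hx h0
    refine le_antisymm (hball x hx) ?_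
    rw [← hx 0]
    refine (pi_norm_le_iff_of_nonneg (norm_nonneg _)).2 fun i => ?_
    induction i using Fin.lastCases with
    | last => simp only [ht] at h0; rw [h0, norm_zero]; exact norm_nonneg _
    | cast i => exact norm_le_pi_norm (pre x) i
  have hodd : ∀ x ∈ P135.BU.prodSphere a, H (Function.update x 0 (-x 0)) = -H x := by
    intro x hx
    have e1 : pre (Function.update x 0 (-x 0)) = -pre x := by funext i; simp [pre]
    have e2 : ht (Function.update x 0 (-x 0)) = -ht x := by simp [ht]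
    simp only [H, e1, e2]
    rcases lt_trichotomy (ht x) 0 with h | h | h
    · rw [if_pos (by linarith), if_neg h.not_ge, neg_neg]
    · rw [if_pos (by linarith), if_pos h.ge]
      have h1 := hequ x hx h
      simp only [G]
      rw [bend_sphere f h1, bend_sphere f (by rwa [norm_neg])]
    · rw [if_neg (by linarith), if_pos h.le, neg_neg]
  have hcont : ContinuousOn H (P135.BU.prodSphere a) := by
    refine ContinuousOn.if (fun x hx => ?_)
      ((hGc.comp hpre_c).continuousOn.mono inter_subset_left)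
      ((hGc.comp hpre_c.neg).neg.continuousOn.mono inter_subset_left)
    have h0 : ht x = 0 := ((frontier_le_subset_eq continuous_const hht_c) hx.2).symm
    have h1 := hequ x hx.1 h0
    simp only [G]
    rw [bend_sphere f h1, bend_sphere f (by rwa [norm_neg]), neg_neg]
  let F : P135.BU.Pt a → (Σ j, Fin (a j)) → ℝ := fun x p => H x p.2
  have hFc : ContinuousOn F (P135.BU.prodSphere a) :=
    continuousOn_pi.2 fun p => (continuous_apply (p.2 : Fin n)).comp_continuousOn hcont
  obtain ⟨x, hx, hz⟩ := P135.BU.exists_zero F hFc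
    (fun x hx p => by simp [F, hodd x hx])
    (fun x hx l hl => absurd (Fin.fin_one_eq_zero l) hl)
  have hH : H x = 0 := funext fun i => congrFun hz ⟨0, i⟩
  simp only [H] at hH
  split_ifs at hH with h
  · exact exists_fixed_of_bend hmap (hball x hx) hH
  · exact exists_fixed_of_bend hmap (by rw [norm_neg]; exact hball x hx) (neg_eq_zero.1 hH)

/-- nearest point projection on a compact convex set of a Euclidean space is continuous -/
lemma exists_retraction {K : Set (EuclideanSpace ℝ (Fin n))} (hc : IsCompact K)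
    (hconv : Convex ℝ K) (hne : K.Nonempty) :
    ∃ r : EuclideanSpace ℝ (Fin n) → EuclideanSpace ℝ (Fin n),
      Continuous r ∧ (∀ u, r u ∈ K) ∧ ∀ u ∈ K, r u = u := by
  choose r hrK hr using fun u => exists_norm_eq_iInf_of_complete_convex hne hc.isComplete hconv u
  have hin : ∀ u, ∀ w ∈ K, ⟪u - r u, w - r u⟫ ≤ 0 := fun u =>
    (norm_eq_iInf_iff_real_inner_le_zero hconv (hrK u)).1 (hr u)
  refine ⟨r, (LipschitzWith.of_dist_le_mul (K := 1) fun u v => ?_).continuous, hrK, fun u hu => ?_⟩
  · rw [NNReal.coe_one, one_mul, dist_eq_norm, dist_eq_norm]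
    have h1 := hin u (r v) (hrK v)
    have h2 := hin v (r u) (hrK u)
    have h3 : ‖r u - r v‖ ^ 2 ≤ ⟪u - v, r u - r v⟫ := by
      rw [← real_inner_self_eq_norm_sq]
      simp only [inner_sub_left, inner_sub_right] at h1 h2 ⊢
      linarith
    have h4 := h3.trans (real_inner_le_norm (u - v) (r u - r v))
    nlinarith [norm_nonneg (r u - r v), norm_nonneg (u - v)]
  · have h := hin u u hu
    rw [real_inner_self_nonpos, sub_eq_zero] at h
    exact h.symm

end BrouwerAux

/-- **Brouwer's fixed point theorem.** A continuous self-map of a nonempty compact convex subset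
of a finite-dimensional normed space has a fixed point. -/
theorem brouwer {E : Type*} [NormedAddCommGroup E] [NormedSpace ℝ E] [FiniteDimensional ℝ E]
    {K : Set E} (hc : IsCompact K) (hconv : Convex ℝ K) (hne : K.Nonempty) (f : E → E)
    (hf : ContinuousOn f K) (hmap : MapsTo f K K) : ∃ x ∈ K, f x = x := by
  set n := Module.finrank ℝ E
  let e : E ≃L[ℝ] EuclideanSpace ℝ (Fin n) :=
    ContinuousLinearEquiv.ofFinrankEq (by simp [n])
  obtain ⟨r, hrc, hrK, hrfix⟩ := BrouwerAux.exists_retraction (hc.image e.continuous)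
    (hconv.linear_image e.toLinearEquiv.toLinearMap) (hne.image e)
  let c : (Fin n → ℝ) ≃L[ℝ] EuclideanSpace ℝ (Fin n) := (EuclideanSpace.equiv (Fin n) ℝ).symm
  obtain ⟨R, hR⟩ := ((hc.image e.continuous).image c.symm.continuous).isBounded.exists_norm_le
  set S := max R 1
  have hS : 0 < S := lt_of_lt_of_le one_pos (le_max_right _ _)
  have hmem : ∀ u, e.symm (r u) ∈ K := fun u => by
    obtain ⟨k, hk, hke⟩ := hrK u
    rw [← hke, e.symm_apply_apply]; exact hk
  let g : (Fin n → ℝ) → (Fin n → ℝ) := fun y => S⁻¹ • c.symm (e (f (e.symm (r (c (S • y))))))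
  have hgc : Continuous g := by
    have h1 : Continuous fun y : Fin n → ℝ => e.symm (r (c (S • y))) :=
      e.symm.continuous.comp (hrc.comp (c.continuous.comp (continuous_const_smul S)))
    have h2 : Continuous fun y : Fin n → ℝ => c.symm (e (f (e.symm (r (c (S • y)))))) :=
      c.symm.continuous.comp (e.continuous.comp (hf.comp_continuous h1 fun y => hmem _))
    exact h2.const_smul S⁻¹
  have hgb : ∀ y, ‖g y‖ ≤ 1 := fun y => by
    rw [norm_smul, norm_inv, Real.norm_eq_abs, abs_of_pos hS, inv_mul_le_one₀ hS]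
    exact (hR _ (mem_image_of_mem _ (mem_image_of_mem _ (hmap (hmem _))))).trans (le_max_left _ _)
  obtain ⟨y, -, hy⟩ := BrouwerAux.brouwer_cube g hgc hgb
  set x := e.symm (r (c (S • y))) with hx
  refine ⟨x, hmem _, ?_⟩
  have h1 : c (S • y) = e (f x) := by
    rw [← hy]
    simp only [g, smul_smul, mul_inv_cancel₀ hS.ne', one_smul, ContinuousLinearEquiv.apply_symm_apply]
    rfl
  have h2 : r (c (S • y)) = e (f x) := by
    rw [h1]; exact hrfix _ (mem_image_of_mem _ (hmap (hmem _)))
  calc f x = e.symm (e (f x)) := (e.symm_apply_apply _).symm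
    _ = x := by rw [← h2]

/-- A continuous map that is close to the identity on a ball vanishes somewhere in it. -/
theorem exists_zero_of_near_id {E : Type*} [NormedAddCommGroup E] [NormedSpace ℝ E]
    [FiniteDimensional ℝ E] (T : E → E) {R : ℝ} (hR : 0 ≤ R) (hT : ContinuousOn T (closedBall 0 R))
    (h : ∀ x, ‖x‖ ≤ R → ‖x - T x‖ ≤ R) : ∃ x, ‖x‖ ≤ R ∧ T x = 0 := by
  obtain ⟨x, hx, hfx⟩ := brouwer (isCompact_closedBall (0 : E) R) (convex_closedBall 0 R)
    ⟨0, mem_closedBall_self hR⟩ (fun x => x - T x) (continuousOn_id.sub hT)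
    (fun x hx => by
      rw [mem_closedBall_zero_iff] at hx ⊢
      exact h x hx)
  exact ⟨x, mem_closedBall_zero_iff.1 hx, sub_eq_self.1 hfx⟩

/-- A continuous map that differs from the identity by `a + b √‖x‖` has a zero. -/
theorem exists_zero_of_sqrt_bound {E : Type*} [NormedAddCommGroup E] [NormedSpace ℝ E]
    [FiniteDimensional ℝ E] (T : E → E) (hT : Continuous T) {a b : ℝ} (ha : 0 ≤ a) (hb : 0 ≤ b)
    (h : ∀ x, ‖x - T x‖ ≤ a + b * Real.sqrt ‖x‖) :
    ∃ x, ‖x‖ ≤ (a + b + 1) ^ 2 ∧ T x = 0 := by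
  refine exists_zero_of_near_id T (sq_nonneg _) hT.continuousOn fun x hx => (h x).trans ?_
  have h1 : Real.sqrt ‖x‖ ≤ a + b + 1 := by
    rw [← Real.sqrt_sq (show 0 ≤ a + b + 1 by linarith)]
    exact Real.sqrt_le_sqrt hx
  nlinarith [mul_le_mul_of_nonneg_left h1 hb]

end Vale.Agent.P371
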