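import Vale.Agent.P371.Kernel

/-!
Matrix calibration: iterated anticommutators and their evaluation in an eigenbasis.
-/

namespace Vale.Agent.P371

open Finset Matrix
open scoped ComplexOrder MatrixOrder Matrix.Norms.L2Operator

variable {N : ℕ}

abbrev Mat (N : ℕ) := Matrix (Fin N) (Fin N) ℂ

/-- `n`-fold anticommutator of `H` applied to `D`. -/
def acIter (H D : Mat N) : ℕ → Mat N
  | 0 => D
  | n + 1 => H * acIter H D n + acIter H D n * H

/-- Derivative of `acIter` in the first argument, in direction `D`. -/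
def acDer (H D : Mat N) : ℕ → Mat N
  | 0 => 0
  | n + 1 => H * acDer H D n + acDer H D n * H + (D * acIter H D n + acIter H D n * D)

lemma acIter_conj (H D : Mat N) (φ : Mat N →+* Mat N) (n : ℕ) :
    φ (acIter H D n) = acIter (φ H) (φ D) n := by
  induction n with
  | zero => rfl
  | succ n ih => simp [acIter, ih]

lemma acDer_conj (H D : Mat N) (φ : Mat N →+* Mat N) (n : ℕ) :
    φ (acDer H D n) = acDer (φ H) (φ D) n := by
  induction n with
  | zero => simp [acDer]
  | succ n ih => simp [acDer, ih, acIter_conj]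

lemma acIter_isHermitian {H D : Mat N} (hH : H.IsHermitian) (hD : D.IsHermitian) (n : ℕ) :
    (acIter H D n).IsHermitian := by
  induction n with
  | zero => exact hD
  | succ n ih =>
    simp only [acIter, Matrix.IsHermitian, conjTranspose_add, conjTranspose_mul, hH.eq, ih.eq]
    rw [add_comm]

/-- The anticommutator is self-adjoint for the trace pairing. -/
lemma trace_acIter_symm (H X Y : Mat N) (n : ℕ) :
    trace (X * acIter H Y n) = trace (acIter H X n * Y) := by
  induction n generalizing X with
  | zero => rfl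
  | succ n ih =>
    have hs : ∀ m, acIter H (H * X + X * H) m = acIter H X (m + 1) := by
      intro m
      induction m with
      | zero => rfl
      | succ m ihm => rw [acIter, ihm]; rfl
    rw [← hs n, ← ih (H * X + X * H), acIter, mul_add, add_mul, trace_add, trace_add,
      ← mul_assoc, ← mul_assoc, trace_mul_cycle X (acIter H Y n) H, add_comm]

lemma diag_acIter (h : Fin N → ℝ) (d : Mat N) (n : ℕ) (i j : Fin N) :
    acIter (diagonal fun k => (h k : ℂ)) d n i j = ((h i + h j) ^ n : ℝ) * d i j := by
  induction n with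
  | zero => simp [acIter]
  | succ n ih =>
    simp only [acIter, Matrix.add_apply, diagonal_mul, mul_diagonal, ih]
    push_cast
    ring

lemma diag_acDer (h : Fin N → ℝ) (d : Mat N) (n : ℕ) (i j : Fin N) :
    acDer (diagonal fun k => (h k : ℂ)) d n i j =
      ∑ k, ((qpow n (h i + h j) (h k + h j) + qpow n (h i + h j) (h i + h k) : ℝ) : ℂ) *
        (d i k * d k j) := by
  induction n with
  | zero => simp [acDer, qpow]
  | succ n ih =>
    simp only [acDer, Matrix.add_apply, diagonal_mul, mul_diagonal, ih]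
    simp only [mul_apply, diag_acIter, mul_sum, sum_mul, ← sum_add_distrib]
    refine sum_congr rfl fun k _ => ?_
    simp only [qpow]
    push_cast
    ring

/-- The triple product `Re (D_ji D_ik D_kj)`. -/
noncomputable def triple (d : Mat N) (i k j : Fin N) : ℝ := (d j i * d i k * d k j).re

/-- Positivity of the calibration remainder; this is the property that makes the sharp bound
work. -/
def RemPos (d : Mat N) : Prop :=
  ∀ h : Fin N → ℝ, (∀ i, h i ∈ Set.Ioo (-(1 / 2) : ℝ) (1 / 2)) →
    0 ≤ ∑ i, ∑ j, ∑ k, remKernel (h i + h j) (h k + h j) * triple d i k j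

lemma abs_triple_le {d : Mat N} (hd : d.PosSemidef) (i k j : Fin N) :
    |triple d i k j| ≤ (trace d).re ^ 3 := by
  have hdiag : ∀ a, 0 ≤ (d a a).re := fun a => by
    have := hd.diag_nonneg (i := a)
    exact (Complex.le_def.mp this).1
  have hle : ∀ a b, ‖d a b‖ ≤ (trace d).re := by
    intro a b
    obtain ⟨B, hB⟩ := CStarAlgebra.nonneg_iff_eq_star_mul_self.mp hd.nonneg
    rw [star_eq_conjTranspose] at hB
    have e : ∀ c, (d c c).re = ∑ l, ‖B l c‖ ^ 2 := by
      intro c
      rw [hB, mul_apply, Complex.re_sum]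
      refine sum_congr rfl fun l _ => ?_
      rw [conjTranspose_apply, ← Complex.normSq_eq_norm_sq, Complex.normSq_apply]
      simp [Complex.mul_re]
    have h1 : ‖d a b‖ ≤ ∑ l, (‖B l a‖ ^ 2 + ‖B l b‖ ^ 2) / 2 := by
      rw [hB, mul_apply]
      refine (norm_sum_le _ _).trans (sum_le_sum fun l _ => ?_)
      rw [conjTranspose_apply, norm_mul, norm_star]
      nlinarith [sq_nonneg (‖B l a‖ - ‖B l b‖)]
    have hs : ∀ c, (d c c).re ≤ (trace d).re := fun c => by
      rw [trace, Complex.re_sum]
      exact single_le_sum (f := fun a => (d a a).re) (fun a _ => hdiag a) (mem_univ c)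
    rw [← sum_div, sum_add_distrib, ← e, ← e] at h1
    linarith [hs a, hs b]
  have ht : 0 ≤ (trace d).re := (norm_nonneg _).trans (hle i j)
  calc |triple d i k j| ≤ ‖d j i * d i k * d k j‖ := Complex.abs_re_le_norm _
    _ ≤ (trace d).re * (trace d).re * (trace d).re := by
        rw [norm_mul, norm_mul]
        gcongr
        · exact hle _ _
        · exact hle _ _
        · exact hle _ _
    _ = _ := by ring

lemma pointwise_diag (c : ℕ → ℝ) (K : ℕ) {η r : ℝ} (hr : r < 1) (hr0 : 0 ≤ r) (hη : η ≤ 1)
    (happ : ∀ u ∈ Set.Icc (-r) r, |polyVal c K u - fcal u| ≤ η ∧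
      ∀ v ∈ Set.Icc (-r) r, |polyDiff c K u v - dslope fcal u v| ≤ η)
    {M : ℝ} (hM : ∀ u ∈ Set.Icc (-r) r, |fcal u| ≤ M)
    (h : Fin N → ℝ) (hh : ∀ i, |h i| ≤ r / 2) {d : Mat N} (hd : d.PosSemidef)
    (hpos : RemPos d) :
    let A := ∑ n ∈ range K, (c n : ℂ) • acIter (diagonal fun k => (h k : ℂ)) d n
    let B := ∑ n ∈ range K, (c n : ℂ) • acDer (diagonal fun k => (h k : ℂ)) d n
    (trace (d * B)).re / 2 + (trace (A * d * A)).re + Real.pi ^ 2 / 4 * (trace (d * d * d)).re ≤
      η * (2 * M + 2) * (N : ℝ) ^ 3 * (trace d).re ^ 3 := by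
  intro A B
  set H : Mat N := diagonal fun k => (h k : ℂ)
  set P := polyVal c K
  set Q := polyDiff c K
  have hu : ∀ i j, h i + h j ∈ Set.Icc (-r) r := fun i j => by
    have := abs_le.mp (hh i); have := abs_le.mp (hh j)
    constructor <;> linarith
  have hA : ∀ i j, A i j = (P (h i + h j) : ℂ) * d i j := by
    intro i j
    simp only [A, Matrix.sum_apply, Matrix.smul_apply, smul_eq_mul, diag_acIter, P, polyVal]
    push_cast
    rw [sum_mul]
    exact sum_congr rfl fun n _ => by ring
  have hB : ∀ i j, B i j = ∑ k, ((Q (h i + h j) (h k + h j) + Q (h i + h j) (h i + h k) : ℝ) : ℂ) *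
      (d i k * d k j) := by
    intro i j
    simp only [B, Matrix.sum_apply, Matrix.smul_apply, smul_eq_mul, diag_acDer, Q, polyDiff, mul_sum]
    rw [sum_comm]
    refine sum_congr rfl fun k _ => ?_
    push_cast
    rw [← sum_add_distrib, sum_mul]
    exact sum_congr rfl fun n _ => by ring
  have hherm : ∀ a b, d b a = (starRingEnd ℂ) (d a b) := fun a b => (hd.isHermitian.apply b a).symm
  have hrev : ∀ i j k, (d i j * d j k * d k i).re = triple d i k j := by
    intro i j k
    unfold triple
    rw [hherm j i, hherm k j, hherm i k]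
    simp only [Complex.mul_re, Complex.mul_im, Complex.conj_re, Complex.conj_im]
    ring
  have e1 : (trace (d * B)).re / 2 =
      ∑ i, ∑ j, ∑ k, Q (h i + h j) (h k + h j) * triple d i k j := by
    have e : (trace (d * B)).re =
        (∑ i, ∑ j, ∑ k, Q (h i + h j) (h k + h j) * triple d i k j) +
        ∑ i, ∑ j, ∑ k, Q (h i + h j) (h i + h k) * triple d i k j := by
      simp only [trace, Matrix.diag, mul_apply, hB, mul_sum, Complex.re_sum]
      rw [sum_comm]
      simp only [← sum_add_distrib]
      refine sum_congr rfl fun i _ => sum_congr rfl fun j _ => sum_congr rfl fun k _ => ?_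
      unfold triple
      rw [← add_mul, mul_left_comm, Complex.re_ofReal_mul, mul_assoc]
    have e' : (∑ i, ∑ j, ∑ k, Q (h i + h j) (h i + h k) * triple d i k j) =
        ∑ i, ∑ j, ∑ k, Q (h i + h j) (h k + h j) * triple d i k j := by
      rw [sum_comm]
      refine sum_congr rfl fun i _ => sum_congr rfl fun j _ => sum_congr rfl fun k _ => ?_
      rw [add_comm (h j) (h i), add_comm (h j) (h k)]
      congr 1
      exact hrev i j k
    rw [e, e']
    ring
  have e2 : (trace (A * d * A)).re =
      ∑ i, ∑ j, ∑ k, P (h i + h j) * P (h k + h j) * triple d i k j := by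
    simp only [trace, Matrix.diag, mul_apply, hA, sum_mul, Complex.re_sum]
    rw [sum_comm_cycle]
    refine sum_congr rfl fun i _ => sum_congr rfl fun j _ => sum_congr rfl fun k _ => ?_
    unfold triple
    rw [show ∀ a b x y z : ℂ, a * x * y * (b * z) = a * b * (x * y * z) from fun a b x y z => by
      ring, ← Complex.ofReal_mul, Complex.re_ofReal_mul, add_comm (h j) (h i)]
  have e3 : (trace (d * d * d)).re = ∑ i, ∑ j, ∑ k, triple d i k j := by
    simp only [trace, Matrix.diag, mul_apply, sum_mul, Complex.re_sum]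
    rw [sum_comm_cycle]
    rfl
  rw [e1, e2, e3, mul_sum]
  simp only [mul_sum, ← sum_add_distrib, ← add_mul]
  have hp := hpos h fun i => by
    have := abs_le.mp (hh i)
    constructor <;> linarith
  have hbound : ∀ i j k, (Q (h i + h j) (h k + h j) + P (h i + h j) * P (h k + h j) +
      Real.pi ^ 2 / 4) * triple d i k j + remKernel (h i + h j) (h k + h j) * triple d i k j ≤
        η * (2 * M + 2) * (trace d).re ^ 3 := by
    intro i j k
    obtain ⟨a1, a2⟩ := happ _ (hu i j)
    obtain ⟨b1, -⟩ := happ _ (hu k j)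
    have a3 := a2 _ (hu k j)
    have hi := hu i j
    have hk := hu k j
    have := calib_identity (u := h i + h j) (v := h k + h j)
      ⟨by linarith [hi.1], by linarith [hi.2]⟩ ⟨by linarith [hk.1], by linarith [hk.2]⟩
    have hη0 : 0 ≤ η := (abs_nonneg _).trans a1
    have f1 := hM _ hi
    have f2 := hM _ hk
    have hM0 : 0 ≤ M := (abs_nonneg _).trans f1
    set u := h i + h j
    set v := h k + h j
    have key : |Q u v + P u * P v + Real.pi ^ 2 / 4 + remKernel u v| ≤ η * (2 * M + 2) := by
      have : Q u v + P u * P v + Real.pi ^ 2 / 4 + remKernel u v =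
          (Q u v - dslope fcal u v) + (P u - fcal u) * fcal v + P u * (P v - fcal v) := by
        linear_combination this
      rw [this]
      have hPu : |P u| ≤ M + 1 := by
        have := abs_sub_abs_le_abs_sub (P u) (fcal u)
        linarith
      refine (abs_add_three _ _ _).trans ?_
      rw [abs_mul, abs_mul]
      have : |P u - fcal u| * |fcal v| ≤ η * M := by gcongr
      have : |P u| * |P v - fcal v| ≤ (M + 1) * η := by gcongr
      linarith
    have ht := abs_triple_le hd i k j
    rw [← add_mul]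
    calc _ ≤ |Q u v + P u * P v + Real.pi ^ 2 / 4 + remKernel u v| * |triple d i k j| := by
          rw [← abs_mul]; exact le_abs_self _
      _ ≤ _ := by gcongr
  have hsum := sum_le_sum fun i (_ : i ∈ (univ : Finset (Fin N))) => sum_le_sum
    fun j (_ : j ∈ (univ : Finset (Fin N))) => sum_le_sum
    fun k (_ : k ∈ (univ : Finset (Fin N))) => hbound i j k
  simp only [sum_add_distrib, sum_const, card_univ, Fintype.card_fin, nsmul_eq_mul] at hsum ⊢
  nlinarith [hsum, hp]

/-- Pointwise bound for a general Hermitian `H` with spectrum in `[-r/2, r/2]`. -/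
lemma pointwise (c : ℕ → ℝ) (K : ℕ) {η r : ℝ} (hr : r < 1) (hr0 : 0 ≤ r) (hη : η ≤ 1)
    (happ : ∀ u ∈ Set.Icc (-r) r, |polyVal c K u - fcal u| ≤ η ∧
      ∀ v ∈ Set.Icc (-r) r, |polyDiff c K u v - dslope fcal u v| ≤ η)
    {M : ℝ} (hM : ∀ u ∈ Set.Icc (-r) r, |fcal u| ≤ M)
    {H : Mat N} (hH : H.IsHermitian) (hh : ∀ i, |hH.eigenvalues i| ≤ r / 2)
    {d : Mat N} (hd : d.PosSemidef)
    (hpos : ∀ V : Mat N, RemPos (Vᴴ * d * V)) :
    let A := ∑ n ∈ range K, (c n : ℂ) • acIter H d n
    let B := ∑ n ∈ range K, (c n : ℂ) • acDer H d n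
    (trace (d * B)).re / 2 + (trace (A * d * A)).re + Real.pi ^ 2 / 4 * (trace (d * d * d)).re ≤
      η * (2 * M + 2) * (N : ℝ) ^ 3 * (trace d).re ^ 3 := by
  intro A B
  let V : Mat N := (hH.eigenvectorUnitary : Mat N)
  have hV : Vᴴ * V = 1 := Unitary.coe_star_mul_self hH.eigenvectorUnitary
  have hV' : V * Vᴴ = 1 := Unitary.coe_mul_star_self hH.eigenvectorUnitary
  let φ : Mat N →+* Mat N :=
    { toFun := fun X => Vᴴ * X * V
      map_one' := by simp [hV]
      map_mul' := fun X Y => by
        have : Vᴴ * X * V * (Vᴴ * Y * V) = Vᴴ * X * (V * Vᴴ) * Y * V := by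
          simp only [Matrix.mul_assoc]
        rw [this, hV']
        simp [Matrix.mul_assoc]
      map_zero' := by simp
      map_add' := fun X Y => by simp [Matrix.mul_add, Matrix.add_mul] }
  have hφH : φ H = diagonal fun k => (hH.eigenvalues k : ℂ) := by
    show Vᴴ * H * V = _
    have e := hH.spectral_theorem
    simp only [Unitary.conjStarAlgAut_apply] at e
    change H = V * _ * Vᴴ at e
    conv_lhs => rw [e]
    simp only [← Matrix.mul_assoc, hV, Matrix.one_mul]
    simp only [Matrix.mul_assoc, hV, Matrix.mul_one]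
    rfl
  have htr : ∀ X, trace (φ X) = trace X := fun X => by
    show trace (Vᴴ * X * V) = _
    rw [trace_mul_cycle, hV', Matrix.one_mul]
  have hsm : ∀ (a : ℂ) X, φ (a • X) = a • φ X := fun a X => by
    show Vᴴ * (a • X) * V = a • (Vᴴ * X * V)
    simp [Matrix.mul_smul, Matrix.smul_mul]
  have hA : φ A = ∑ n ∈ range K, (c n : ℂ) • acIter (φ H) (φ d) n := by
    simp only [A, map_sum, hsm, acIter_conj]
  have hB : φ B = ∑ n ∈ range K, (c n : ℂ) • acDer (φ H) (φ d) n := by
    simp only [B, map_sum, hsm, acDer_conj]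
  have hd' : (φ d).PosSemidef := hd.conjTranspose_mul_mul_same V
  have := pointwise_diag c K hr hr0 hη happ hM hH.eigenvalues hh hd' (hpos V)
  simp only [← hφH, ← hA, ← hB] at this
  rw [← map_mul, ← map_mul, ← map_mul, ← map_mul, ← map_mul, htr, htr, htr, htr] at this
  exact this

/-- Completing the square: `|U' - U A|^2 ≥ 0`. -/
lemma square_completion {m : ℕ} (U U' : Matrix (Fin m) (Fin N) ℂ) (A : Mat N)
    (hA : A.IsHermitian) :
    (trace (A * (U'ᴴ * U + Uᴴ * U'))).re ≤
      (trace (U'ᴴ * U')).re + (trace (A * (Uᴴ * U) * A)).re := by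
  have h := (posSemidef_conjTranspose_mul_self (U' - U * A)).trace_nonneg
  have h' := (Complex.le_def.mp h).1
  simp only [conjTranspose_sub, conjTranspose_mul, hA.eq, Matrix.sub_mul, Matrix.mul_sub,
    trace_sub, Complex.sub_re, Complex.zero_re] at h'
  have e : trace (U'ᴴ * (U * A)) = trace (A * (U'ᴴ * U)) := by
    rw [← Matrix.mul_assoc, trace_mul_comm]
  simp only [Matrix.mul_add, trace_add, Complex.add_re, ← Matrix.mul_assoc] at h' e ⊢
  rw [e] at h'
  linarith

end Vale.Agent.P371
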