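import Mathlib

/-!
Definitions for the one-dimensional Lieb-Thirring problem at `γ = 1`, `p = 3/2`.
-/

namespace Vale.Agent.P371

open MeasureTheory Finset Matrix
open scoped ComplexOrder ComplexConjugate

variable {m N : ℕ}

/-- `tr (A ^ p)` of a Hermitian matrix, via its eigenvalues (`0` if `A` is not Hermitian). -/
noncomputable def trRpow (A : Matrix (Fin m) (Fin m) ℂ) (p : ℝ) : ℝ :=
  if h : A.IsHermitian then ∑ i, h.eigenvalues i ^ p else 0

/-- A potential for `γ = 1`: measurable, pointwise positive semidefinite, with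
`∫ tr (W ^ (3/2)) < ∞`. -/
structure IsPotential (W : ℝ → Matrix (Fin m) (Fin m) ℂ) : Prop where
  measurable : ∀ a b, Measurable fun x => W x a b
  posSemidef : ∀ x, (W x).PosSemidef
  integrable : Integrable fun x => trRpow (W x) (3 / 2)

/-- `∫ tr (W ^ (3/2))`. -/
noncomputable def potentialNorm (W : ℝ → Matrix (Fin m) (Fin m) ℂ) : ℝ :=
  ∫ x, trRpow (W x) (3 / 2)

/-- An orthonormal family in `L²(ℝ; ℂ^m)` of `C¹` functions with derivatives in `L²`. -/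
structure IsTrialFamily (ψ : Fin N → ℝ → EuclideanSpace ℂ (Fin m)) : Prop where
  contDiff : ∀ j, ContDiff ℝ 1 (ψ j)
  memLp : ∀ j, MemLp (ψ j) 2 volume
  memLp_deriv : ∀ j, MemLp (deriv (ψ j)) 2 volume
  orthonormal : ∀ j k, ∫ x, inner ℂ (ψ j x) (ψ k x) = if j = k then 1 else 0

/-- Minus the quadratic form of `-d²/dx² - W` at `φ`. -/
noncomputable def negForm (W : ℝ → Matrix (Fin m) (Fin m) ℂ)
    (φ : ℝ → EuclideanSpace ℂ (Fin m)) : ℝ :=
  (∫ x, (∑ a, ∑ b, conj (φ x a) * W x a b * φ x b).re) - ∫ x, ‖deriv φ x‖ ^ 2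

/-- The quotients whose supremum is `L_1(m)`. -/
def ltRatios (m : ℕ) : Set ℝ :=
  {r | ∃ W : ℝ → Matrix (Fin m) (Fin m) ℂ, IsPotential W ∧ 0 < potentialNorm W ∧
    ∃ (N : ℕ) (ψ : Fin N → ℝ → EuclideanSpace ℂ (Fin m)), IsTrialFamily ψ ∧
      r = (∑ j, negForm W (ψ j)) / potentialNorm W}

/-- The quotients whose supremum is the one-bound-state constant `L_1^{(1)}`. -/
def oneStateRatios : Set ℝ :=
  {r | ∃ W : ℝ → Matrix (Fin 1) (Fin 1) ℂ, IsPotential W ∧ 0 < potentialNorm W ∧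
    ∃ ψ : Fin 1 → ℝ → EuclideanSpace ℂ (Fin 1), IsTrialFamily ψ ∧
      r = negForm W (ψ 0) / potentialNorm W}

/-- Keller's closed formula `2 ((γ-1/2)/(γ+1/2))^(γ-1/2) Γ(γ+1)/(2 √π Γ(γ+3/2))`. -/
noncomputable def oneStateConst (γ : ℝ) : ℝ :=
  2 * ((γ - 1 / 2) / (γ + 1 / 2)) ^ (γ - 1 / 2) *
    (Real.Gamma (γ + 1) / (2 * Real.sqrt Real.pi * Real.Gamma (γ + 3 / 2)))

end Vale.Agent.P371
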