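import Vale.Agent.P371.Defs

/-!
The extremal potential `(3/4) sech²` and the value of the one-bound-state constant at `γ = 1`.
-/

namespace Vale.Agent.P371

open MeasureTheory Finset Matrix Filter Topology
open scoped ComplexOrder ComplexConjugate

lemma cosh_sinh_sq (x : ℝ) : Real.cosh x ^ 2 = 1 + Real.sinh x ^ 2 := by
  linarith [Real.cosh_sq x]

lemma inv_cosh_le (x : ℝ) : (Real.cosh x)⁻¹ ≤ 4 * (1 + x ^ 2)⁻¹ := by
  have h : 1 + x ^ 2 ≤ 4 * Real.cosh x := by
    have h1 := Real.quadratic_le_exp_of_nonneg (abs_nonneg x)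
    have h2 := Real.exp_pos (-|x|)
    have h3 : Real.cosh |x| = (Real.exp |x| + Real.exp (-|x|)) / 2 := Real.cosh_eq _
    rw [Real.cosh_abs] at h3
    have h4 : |x| ^ 2 = x ^ 2 := sq_abs x
    have h5 := Real.add_one_le_exp (-|x|)
    nlinarith
  rw [← div_eq_mul_inv, inv_eq_one_div, div_le_div_iff₀ (Real.cosh_pos x) (by positivity)]
  linarith

lemma integrable_inv_cosh : Integrable fun x => (Real.cosh x)⁻¹ := by
  refine (integrable_inv_one_add_sq.const_mul 4).mono'
    (Real.continuous_cosh.inv₀ fun x => (Real.cosh_pos x).ne').aestronglyMeasurable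
    (Eventually.of_forall fun x => ?_)
  rw [Real.norm_eq_abs, abs_of_nonneg (inv_nonneg.mpr (Real.cosh_pos x).le)]
  exact inv_cosh_le x

lemma integrable_inv_cosh_cube : Integrable fun x => ((Real.cosh x)⁻¹) ^ 3 := by
  refine integrable_inv_cosh.mono'
    ((Real.continuous_cosh.inv₀ fun x => (Real.cosh_pos x).ne').pow 3).aestronglyMeasurable
    (Eventually.of_forall fun x => ?_)
  have h0 : 0 ≤ (Real.cosh x)⁻¹ := inv_nonneg.mpr (Real.cosh_pos x).le
  have h1 : (Real.cosh x)⁻¹ ≤ 1 := inv_le_one_of_one_le₀ (Real.one_le_cosh x)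
  rw [Real.norm_eq_abs, abs_of_nonneg (pow_nonneg h0 3)]
  calc _ ≤ (Real.cosh x)⁻¹ ^ 1 := pow_le_pow_of_le_one h0 h1 (by norm_num)
    _ = _ := pow_one _

lemma tendsto_sinh_atTop : Tendsto Real.sinh atTop atTop :=
  tendsto_atTop_mono' _ ((eventually_ge_atTop 0).mono fun _ hx => Real.self_le_sinh_iff.mpr hx)
    tendsto_id

lemma tendsto_sinh_atBot : Tendsto Real.sinh atBot atBot :=
  tendsto_atBot_mono' _ ((eventually_le_atBot 0).mono fun _ hx => Real.sinh_le_self_iff.mpr hx)
    tendsto_id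

lemma integral_inv_cosh : ∫ x, (Real.cosh x)⁻¹ = Real.pi := by
  have hd : ∀ x, HasDerivAt (fun y => Real.arctan (Real.sinh y)) (Real.cosh x)⁻¹ x := by
    intro x
    refine ((Real.hasDerivAt_sinh x).arctan).congr_deriv ?_
    rw [← cosh_sinh_sq]
    have := Real.cosh_pos x
    field_simp
  rw [integral_of_hasDerivAt_of_tendsto hd integrable_inv_cosh
    ((Real.tendsto_arctan_atBot.mono_right nhdsWithin_le_nhds).comp tendsto_sinh_atBot)
    ((Real.tendsto_arctan_atTop.mono_right nhdsWithin_le_nhds).comp tendsto_sinh_atTop)]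
  ring

lemma integral_inv_cosh_cube : ∫ x, ((Real.cosh x)⁻¹) ^ 3 = Real.pi / 2 := by
  have hd : ∀ x, HasDerivAt
      (fun y => Real.sinh y / Real.cosh y ^ 2 / 2 + Real.arctan (Real.sinh y) / 2)
      ((Real.cosh x)⁻¹ ^ 3) x := by
    intro x
    have hc := (Real.cosh_pos x).ne'
    refine ((((Real.hasDerivAt_sinh x).div ((Real.hasDerivAt_cosh x).pow 2)
      (pow_ne_zero 2 hc)).div_const 2).add
      ((Real.hasDerivAt_sinh x).arctan.div_const 2)).congr_deriv ?_
    simp only [Pi.pow_apply, Nat.cast_ofNat]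
    rw [← cosh_sinh_sq]
    have := Real.cosh_sq x
    field_simp
    linear_combination (2 * Real.cosh x) * this
  have h0 : ∀ l : Filter ℝ, Tendsto (fun x => (Real.cosh x)⁻¹) l (𝓝 0) →
      Tendsto (fun y => Real.sinh y / Real.cosh y ^ 2 / 2) l (𝓝 0) := by
    intro l hl
    refine squeeze_zero_norm (fun x => ?_) hl
    have hc := Real.cosh_pos x
    have h2 : |Real.sinh x| ≤ Real.cosh x := by
      refine abs_le_of_sq_le_sq ?_ hc.le
      linarith [Real.cosh_sq x]
    rw [Real.norm_eq_abs, abs_div, abs_div, abs_of_pos (pow_pos hc 2), abs_two]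
    calc |Real.sinh x| / Real.cosh x ^ 2 / 2 ≤ Real.cosh x / Real.cosh x ^ 2 / 2 := by gcongr
      _ = (Real.cosh x)⁻¹ / 2 := by field_simp
      _ ≤ (Real.cosh x)⁻¹ := half_le_self (inv_nonneg.mpr hc.le)
  have hlim : ∀ l : Filter ℝ, Tendsto (fun x => |x|) l atTop →
      Tendsto (fun x => (Real.cosh x)⁻¹) l (𝓝 0) := by
    intro l hl
    refine tendsto_inv_atTop_zero.comp (tendsto_atTop_mono (fun x => ?_)
      (Real.tendsto_exp_atTop.comp hl |>.atTop_div_const two_pos))
    rw [← Real.cosh_abs x, Real.cosh_eq]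
    have := Real.exp_pos (-|x|)
    simp only [Function.comp]
    linarith
  rw [integral_of_hasDerivAt_of_tendsto hd integrable_inv_cosh_cube
    ((h0 _ (hlim _ tendsto_abs_atBot_atTop)).add
      (((Real.tendsto_arctan_atBot.mono_right nhdsWithin_le_nhds).comp
        tendsto_sinh_atBot).div_const 2))
    ((h0 _ (hlim _ tendsto_abs_atTop_atTop)).add
      (((Real.tendsto_arctan_atTop.mono_right nhdsWithin_le_nhds).comp
        tendsto_sinh_atTop).div_const 2))]
  ring

lemma eigenvalues_smul_one {m : ℕ} (w : ℝ)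
    (h : ((w : ℂ) • (1 : Matrix (Fin m) (Fin m) ℂ)).IsHermitian) (i : Fin m) :
    h.eigenvalues i = w := by
  rw [h.eigenvalues_eq, Matrix.smul_mulVec, Matrix.one_mulVec, dotProduct_smul, smul_eq_mul]
  have hn : (star ⇑(h.eigenvectorBasis i) ⬝ᵥ ⇑(h.eigenvectorBasis i) : ℂ) = 1 := by
    have := (h.eigenvectorBasis.orthonormal).1 i
    have e : (inner ℂ (h.eigenvectorBasis i) (h.eigenvectorBasis i) : ℂ) = 1 := by
      rw [inner_self_eq_norm_sq_to_K, this]
      simp
    rw [← e, EuclideanSpace.inner_eq_star_dotProduct, dotProduct_comm]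
  rw [hn]
  simp

/-- Equality is attained by `(3/4) sech² · 1` with `m` copies of the ground state. -/
theorem exists_optimizer (m : ℕ) :
    ∃ W : ℝ → Matrix (Fin m) (Fin m) ℂ, IsPotential W ∧
      potentialNorm W = m * (3 * Real.sqrt 3 * Real.pi / 16) ∧
      ∃ ψ : Fin m → ℝ → EuclideanSpace ℂ (Fin m), IsTrialFamily ψ ∧
        ∀ j, negForm W (ψ j) = 1 / 4 := by
  set w : ℝ → ℝ := fun x => 3 / 4 * ((Real.cosh x)⁻¹) ^ 2 with hw
  set W : ℝ → Matrix (Fin m) (Fin m) ℂ := fun x => (w x : ℂ) • 1 with hWdef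
  have hw0 : ∀ x, 0 ≤ w x := fun x => by
    have := Real.cosh_pos x
    positivity
  have hWp : ∀ x, (W x).PosSemidef := fun x =>
    Matrix.PosSemidef.one.smul (by rw [Complex.le_def]; simp [hw0 x])
  have hnorm : ∀ x, trRpow (W x) (3 / 2) =
      (m : ℝ) * (3 * Real.sqrt 3 / 8) * ((Real.cosh x)⁻¹) ^ 3 := by
    intro x
    rw [trRpow, dif_pos (hWp x).isHermitian]
    simp only [hWdef, eigenvalues_smul_one, sum_const, card_univ, Fintype.card_fin, nsmul_eq_mul]
    have h0 : 0 ≤ (Real.cosh x)⁻¹ := inv_nonneg.mpr (Real.cosh_pos x).le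
    have e : w x ^ (3 / 2 : ℝ) = Real.sqrt (w x) ^ 3 := by
      rw [Real.sqrt_eq_rpow, ← Real.rpow_natCast, ← Real.rpow_mul (hw0 x)]
      norm_num
    have e2 : Real.sqrt (w x) = Real.sqrt 3 / 2 * (Real.cosh x)⁻¹ := by
      simp only [hw]
      rw [show (3 : ℝ) / 4 * (Real.cosh x)⁻¹ ^ 2 =
        (Real.sqrt 3 / 2 * (Real.cosh x)⁻¹) ^ 2 by rw [mul_pow, div_pow,
          Real.sq_sqrt (by norm_num : (0:ℝ) ≤ 3)]; norm_num]
      exact Real.sqrt_sq (by positivity)
    rw [e, e2]
    have : Real.sqrt 3 ^ 2 = 3 := Real.sq_sqrt (by norm_num)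
    field_simp
    linear_combination (8 * (m : ℝ)) * this
  set f : ℝ → ℝ := fun x => (Real.sqrt (Real.pi * Real.cosh x))⁻¹ with hf
  have hpc : ∀ x, 0 < Real.pi * Real.cosh x := fun x => mul_pos Real.pi_pos (Real.cosh_pos x)
  have hf2 : ∀ x, f x ^ 2 = (Real.cosh x)⁻¹ / Real.pi := fun x => by
    rw [hf, inv_pow, Real.sq_sqrt (hpc x).le]
    field_simp
  set f' : ℝ → ℝ := fun x => -(Real.sinh x * (Real.cosh x)⁻¹ / 2) * f x with hf'
  have hfd : ∀ x, HasDerivAt f (f' x) x := by
    intro x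
    have h := ((((Real.hasDerivAt_cosh x).const_mul Real.pi).sqrt (hpc x).ne').fun_inv
      (Real.sqrt_pos.mpr (hpc x)).ne')
    refine h.congr_deriv ?_
    have h2 : Real.sqrt (Real.pi * Real.cosh x) ^ 2 = Real.pi * Real.cosh x :=
      Real.sq_sqrt (hpc x).le
    have hs := (Real.sqrt_pos.mpr (hpc x)).ne'
    have hc := (Real.cosh_pos x).ne'
    simp only [hf', hf]
    field_simp
    linear_combination (Real.sinh x) * h2
  have hf'2 : ∀ x, f' x ^ 2 =
      ((Real.cosh x)⁻¹ - ((Real.cosh x)⁻¹) ^ 3) / (4 * Real.pi) := fun x => by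
    simp only [hf']
    rw [mul_pow, hf2]
    have hc := (Real.cosh_pos x).ne'
    have := Real.cosh_sq x
    field_simp
    linear_combination (-4 : ℝ) * this
  have hfc : Continuous f := continuous_iff_continuousAt.mpr fun x => (hfd x).continuousAt
  have hf'c : Continuous f' :=
    (((Real.continuous_sinh.mul (Real.continuous_cosh.inv₀ fun x => (Real.cosh_pos x).ne')
      ).div_const 2).neg).mul hfc
  set ψ : Fin m → ℝ → EuclideanSpace ℂ (Fin m) := fun j x =>
    (f x : ℂ) • EuclideanSpace.single j (1 : ℂ) with hψ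
  have hψd : ∀ j x, HasDerivAt (ψ j) ((f' x : ℂ) • EuclideanSpace.single j (1 : ℂ)) x :=
    fun j x => ((hfd x).ofReal_comp).smul_const _
  have hd : ∀ j, deriv (ψ j) = fun x => (f' x : ℂ) • EuclideanSpace.single j (1 : ℂ) :=
    fun j => funext fun x => (hψd j x).deriv
  have hmem : ∀ (g : ℝ → ℝ) (j : Fin m), Continuous g → Integrable (fun x => g x ^ 2) →
      MemLp (fun x => (g x : ℂ) • EuclideanSpace.single j (1 : ℂ)) 2 volume := by
    intro g j hg hi
    have : MemLp g 2 volume := (memLp_two_iff_integrable_sq hg.aestronglyMeasurable).mpr hi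
    refine MemLp.of_le (g := g) this (by fun_prop) (Eventually.of_forall fun x => ?_)
    simp [norm_smul]
  have hfi : Integrable fun x => f x ^ 2 := by
    simp only [hf2]
    exact integrable_inv_cosh.div_const _
  have hf'i : Integrable fun x => f' x ^ 2 := by
    simp only [hf'2]
    exact (integrable_inv_cosh.sub integrable_inv_cosh_cube).div_const _
  refine ⟨W, ⟨fun a b => ?_, hWp, ?_⟩, ?_, ψ,
    ⟨fun j => ?_, fun j => hmem f j hfc hfi, fun j => ?_, fun j k => ?_⟩, fun j => ?_⟩
  · have : Continuous w := by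
      rw [hw]
      exact continuous_const.mul
        ((Real.continuous_cosh.inv₀ fun x => (Real.cosh_pos x).ne').pow 2)
    simp only [hWdef, Matrix.smul_apply, smul_eq_mul]
    exact ((Complex.continuous_ofReal.comp this).mul continuous_const).measurable
  · simp only [hnorm]
    exact integrable_inv_cosh_cube.const_mul _
  · unfold potentialNorm
    simp only [hnorm, integral_const_mul, integral_inv_cosh_cube]
    ring
  · refine contDiff_one_iff_deriv.mpr ⟨fun x => (hψd j x).differentiableAt, ?_⟩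
    rw [hd j]
    fun_prop
  · rw [hd j]
    exact hmem f' j hf'c hf'i
  · simp only [hψ, inner_smul_left, inner_smul_right, EuclideanSpace.inner_single_left, map_one,
      Complex.conj_ofReal, one_mul]
    by_cases h : j = k
    · subst h
      simp only [PiLp.single_apply, if_true, mul_one]
      have e : (fun x => (f x : ℂ) * (f x : ℂ)) = fun x => ((f x ^ 2 : ℝ) : ℂ) := by
        funext x; push_cast; ring
      rw [e, integral_complex_ofReal]
      simp [hf2, integral_div, integral_inv_cosh, Real.pi_ne_zero]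
    · simp [PiLp.single_apply, h]
  · unfold negForm
    have e1 : ∀ x, (∑ a, ∑ b, conj (ψ j x a) * W x a b * ψ j x b).re =
        3 / (4 * Real.pi) * ((Real.cosh x)⁻¹) ^ 3 := by
      intro x
      have : (∑ a, ∑ b, conj (ψ j x a) * W x a b * ψ j x b) = ((w x * f x ^ 2 : ℝ) : ℂ) := by
        simp only [hψ, hWdef, PiLp.smul_apply, PiLp.single_apply, Matrix.smul_apply, smul_eq_mul,
          Matrix.one_apply]
        rw [sum_eq_single j (fun a _ ha => by simp [ha]) (by simp),
          sum_eq_single j (fun b _ hb => by simp [hb]) (by simp)]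
        simp only [if_true, mul_one, Complex.conj_ofReal]
        push_cast
        ring
      rw [this, Complex.ofReal_re, hf2, hw]
      ring
    have e2 : ∀ x, ‖deriv (ψ j) x‖ ^ 2 =
        ((Real.cosh x)⁻¹ - ((Real.cosh x)⁻¹) ^ 3) / (4 * Real.pi) := fun x => by
      rw [hd j, norm_smul, ← hf'2]
      simp
    simp only [e1, e2, integral_const_mul, integral_div,
      integral_sub integrable_inv_cosh integrable_inv_cosh_cube, integral_inv_cosh,
      integral_inv_cosh_cube]
    field_simp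
    ring

lemma oneStateConst_one : oneStateConst 1 = 4 / (3 * Real.sqrt 3 * Real.pi) := by
  unfold oneStateConst
  norm_num
  have hg2 : Real.Gamma (5 / 2) = 3 / 4 * Real.sqrt Real.pi := by
    rw [show (5 / 2 : ℝ) = 3 / 2 + 1 by norm_num, Real.Gamma_add_one (by norm_num),
      show (3 / 2 : ℝ) = 1 / 2 + 1 by norm_num, Real.Gamma_add_one (by norm_num),
      Real.Gamma_one_half_eq]
    ring
  rw [hg2, ← Real.sqrt_eq_rpow, Real.sqrt_div (by norm_num), Real.sqrt_one]
  have hp : Real.sqrt Real.pi * Real.sqrt Real.pi = Real.pi := Real.mul_self_sqrt Real.pi_pos.le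
  have h1 : Real.sqrt 3 ≠ 0 := by positivity
  have h2 : Real.sqrt Real.pi ≠ 0 := by positivity
  field_simp
  linear_combination (-(1 : ℝ)) * hp

end Vale.Agent.P371
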