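import Mathlib

/-!
Scalar facts about the calibration function `f u = -(π/2) tan (π u / 2)`
used for the sharp one-dimensional kinetic inequality at `γ = 1`.
-/

namespace Vale.Agent.P371

open Real Finset

noncomputable def half (u : ℝ) : ℝ := π * u / 2

noncomputable def fcal (u : ℝ) : ℝ := -(π / 2) * tan (half u)

noncomputable def fcal' (u : ℝ) : ℝ := -(π ^ 2 / 4) / cos (half u) ^ 2

lemma half_mem {u : ℝ} (hu : u ∈ Set.Ioo (-1 : ℝ) 1) : half u ∈ Set.Ioo (-(π / 2)) (π / 2) := by
  have := Real.pi_pos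
  constructor <;> unfold half <;> nlinarith [hu.1, hu.2]

lemma cos_half_pos {u : ℝ} (hu : u ∈ Set.Ioo (-1 : ℝ) 1) : 0 < cos (half u) :=
  cos_pos_of_mem_Ioo (half_mem hu)

lemma hasDerivAt_fcal {u : ℝ} (hu : u ∈ Set.Ioo (-1 : ℝ) 1) :
    HasDerivAt fcal (fcal' u) u := by
  have h1 : HasDerivAt half (π / 2) u := by
    unfold half
    simpa [mul_div_assoc] using ((hasDerivAt_id u).const_mul π).div_const 2
  have h2 := ((hasDerivAt_tan (cos_half_pos hu).ne').comp u h1).const_mul (-(π / 2))
  refine h2.congr_deriv ?_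
  unfold fcal'
  ring

lemma fcal_zero : fcal 0 = 0 := by simp [fcal, half]

/-- The kernel left over by the calibration. -/
noncomputable def remKernel (u v : ℝ) : ℝ :=
  (π ^ 2 / 4) * (sinc (half u - half v) - cos (half u - half v)) /
    (cos (half u) * cos (half v))

/-- Exact evaluation of the calibration kernel. -/
lemma calib_identity {u v : ℝ} (hu : u ∈ Set.Ioo (-1 : ℝ) 1) (hv : v ∈ Set.Ioo (-1 : ℝ) 1) :
    dslope fcal u v + fcal u * fcal v + π ^ 2 / 4 = -remKernel u v := by
  have cu := cos_half_pos hu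
  have cv := cos_half_pos hv
  rcases eq_or_ne v u with rfl | hne
  · rw [dslope_same, (hasDerivAt_fcal hv).deriv]
    unfold remKernel fcal fcal'
    rw [sub_self, sinc_zero, cos_zero, tan_eq_sin_div_cos]
    have := sin_sq_add_cos_sq (half v)
    field_simp
    linear_combination (4:ℝ) * this
  · rw [dslope_of_ne _ hne, slope_def_field]
    unfold remKernel fcal
    have hd : half u - half v ≠ 0 := by
      unfold half
      intro h
      apply hne
      have := Real.pi_pos
      nlinarith
    rw [sinc_of_ne_zero hd, sin_sub, cos_sub, tan_eq_sin_div_cos, tan_eq_sin_div_cos]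
    have hvu : v - u ≠ 0 := sub_ne_zero.mpr hne
    have hd' : half u - half v = π / 2 * (u - v) := by unfold half; ring
    rw [hd']
    have hp := Real.pi_pos
    have huv : u - v ≠ 0 := sub_ne_zero.mpr hne.symm
    field_simp
    ring

lemma sinc_sub_cos_nonneg {x : ℝ} (hx : x ∈ Set.Icc (-π) π) : 0 ≤ sinc x - cos x := by
  have key : ∀ y : ℝ, 0 < y → y ≤ π → 0 ≤ sinc y - cos y := by
    intro y hy hy'
    rw [sinc_of_ne_zero hy.ne', sub_nonneg, le_div_iff₀ hy]
    rcases le_or_gt (π / 2) y with h | h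
    · have h1 : cos y ≤ 0 := cos_nonpos_of_pi_div_two_le_of_le h (by linarith)
      have h2 : 0 ≤ sin y := sin_nonneg_of_nonneg_of_le_pi hy.le hy'
      nlinarith
    · have h1 := le_tan hy.le h
      have hc : 0 < cos y := cos_pos_of_mem_Ioo ⟨by linarith, h⟩
      rw [tan_eq_sin_div_cos, le_div_iff₀ hc] at h1
      linarith
  rcases lt_trichotomy x 0 with h | h | h
  · have := key (-x) (by linarith) (by linarith [hx.1])
    simpa using this
  · simp [h]
  · exact key x h hx.2

lemma remKernel_nonneg {u v : ℝ} (hu : u ∈ Set.Ioo (-1 : ℝ) 1) (hv : v ∈ Set.Ioo (-1 : ℝ) 1) :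
    0 ≤ remKernel u v := by
  have cu := cos_half_pos hu
  have cv := cos_half_pos hv
  have h1 := half_mem hu
  have h2 := half_mem hv
  have := sinc_sub_cos_nonneg (x := half u - half v)
    ⟨by linarith [h1.1, h2.2], by linarith [h1.2, h2.1]⟩
  unfold remKernel
  positivity

/-- Value of the polynomial with coefficients `c` (below `K`). -/
def polyVal (c : ℕ → ℝ) (K : ℕ) (u : ℝ) : ℝ := ∑ n ∈ range K, c n * u ^ n

/-- The divided difference of `u ↦ u ^ n`. -/
def qpow : ℕ → ℝ → ℝ → ℝ
  | 0, _, _ => 0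
  | n + 1, u, v => u * qpow n u v + v ^ n

lemma qpow_mul_sub (n : ℕ) (u v : ℝ) : qpow n u v * (u - v) = u ^ n - v ^ n := by
  induction n with
  | zero => simp [qpow]
  | succ n ih =>
    simp only [qpow, pow_succ]
    linear_combination u * ih

lemma qpow_self (n : ℕ) (u : ℝ) : qpow n u u = n * u ^ (n - 1) := by
  induction n with
  | zero => simp [qpow]
  | succ n ih =>
    simp only [qpow, ih, Nat.add_sub_cancel, Nat.cast_succ]
    rcases n with _ | k
    · simp
    · simp only [Nat.add_sub_cancel, pow_succ]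
      ring

def polyDiff (c : ℕ → ℝ) (K : ℕ) (u v : ℝ) : ℝ := ∑ n ∈ range K, c n * qpow n u v

lemma polyDiff_eq_dslope (c : ℕ → ℝ) (K : ℕ) (u v : ℝ) :
    polyDiff c K u v = dslope (polyVal c K) u v := by
  rcases eq_or_ne v u with rfl | hne
  · rw [dslope_same]
    have h : HasDerivAt (polyVal c K) (∑ n ∈ range K, c n * (n * v ^ (n - 1))) v := by
      unfold polyVal
      exact HasDerivAt.fun_sum fun n _ => (hasDerivAt_pow n v).const_mul (c n)
    rw [h.deriv]
    simp [polyDiff, qpow_self]
  · rw [dslope_of_ne _ hne, slope_def_field, eq_div_iff (sub_ne_zero.mpr hne)]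
    simp only [polyDiff, polyVal, sum_mul, ← sum_sub_distrib]
    refine sum_congr rfl fun n _ => ?_
    linear_combination (-(c n)) * qpow_mul_sub n u v

lemma exists_poly_approx {r η : ℝ} (hr0 : 0 ≤ r) (hr : r < 1) (hη : 0 < η) :
    ∃ (c : ℕ → ℝ) (K : ℕ), ∀ u ∈ Set.Icc (-r) r, |polyVal c K u - fcal u| ≤ η ∧
      ∀ v ∈ Set.Icc (-r) r, |polyDiff c K u v - dslope fcal u v| ≤ η := by
  have hsub : Set.Icc (-r) r ⊆ Set.Ioo (-1 : ℝ) 1 := fun x hx =>
    ⟨by linarith [hx.1], by linarith [hx.2]⟩
  have hcont : ContinuousOn fcal' (Set.Icc (-r) r) := by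
    unfold fcal' half
    apply ContinuousOn.div continuousOn_const (by fun_prop)
    intro x hx
    exact pow_ne_zero _ (cos_half_pos (hsub hx)).ne'
  obtain ⟨Q, hQ⟩ := exists_polynomial_near_of_continuousOn (-r) r fcal' hcont η hη
  set c : ℕ → ℝ := fun n => if n = 0 then 0 else Q.coeff (n - 1) / n with hc
  set K := Q.natDegree + 2 with hK
  refine ⟨c, K, ?_⟩
  have hd : ∀ x, HasDerivAt (polyVal c K) (Q.eval x) x := by
    intro x
    have h : HasDerivAt (polyVal c K) (∑ n ∈ range K, c n * (n * x ^ (n - 1))) x := by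
      unfold polyVal
      exact HasDerivAt.fun_sum fun n _ => (hasDerivAt_pow n x).const_mul (c n)
    refine h.congr_deriv ?_
    rw [hK, sum_range_succ', Polynomial.eval_eq_sum_range]
    simp only [Nat.cast_zero, zero_mul, mul_zero, add_zero]
    refine sum_congr rfl fun n _ => ?_
    simp only [hc, Nat.add_eq_zero_iff, one_ne_zero, and_false, if_false, Nat.add_sub_cancel]
    field_simp
  have hg : ∀ x ∈ Set.Icc (-r) r, HasDerivWithinAt (fun y => polyVal c K y - fcal y)
      (Q.eval x - fcal' x) (Set.Icc (-r) r) x := fun x hx =>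
    ((hd x).sub (hasDerivAt_fcal (hsub hx))).hasDerivWithinAt
  have hlip : ∀ u ∈ Set.Icc (-r) r, ∀ v ∈ Set.Icc (-r) r,
      |(polyVal c K v - fcal v) - (polyVal c K u - fcal u)| ≤ η * |v - u| := by
    intro u hu v hv
    have := Convex.norm_image_sub_le_of_norm_hasDerivWithin_le (C := η) hg
      (fun x hx => (hQ x hx).le) (convex_Icc _ _) hu hv
    simpa using this
  have h0 : polyVal c K 0 = 0 := by
    unfold polyVal
    refine sum_eq_zero fun n _ => ?_
    rcases n with _ | n <;> simp [hc]
  intro u hu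
  refine ⟨?_, ?_⟩
  · have := hlip 0 ⟨by linarith, hr0⟩ u hu
    rw [h0, fcal_zero, sub_zero, sub_zero, sub_zero] at this
    refine this.trans ?_
    have : |u| ≤ 1 := abs_le.mpr ⟨by linarith [hu.1], by linarith [hu.2]⟩
    nlinarith
  · intro v hv
    rw [polyDiff_eq_dslope]
    rcases eq_or_ne v u with rfl | hne
    · rw [dslope_same, dslope_same, (hd v).deriv, (hasDerivAt_fcal (hsub hv)).deriv]
      exact (hQ v hv).le
    · rw [dslope_of_ne _ hne, dslope_of_ne _ hne, slope_def_field, slope_def_field,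
        ← sub_div, abs_div, div_le_iff₀ (abs_pos.mpr (sub_ne_zero.mpr hne))]
      have := hlip u hu v hv
      rwa [show polyVal c K v - polyVal c K u - (fcal v - fcal u) =
        polyVal c K v - fcal v - (polyVal c K u - fcal u) by ring]

end Vale.Agent.P371
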