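import Vale.Agent.P371.Algebra

/-!
The sharp kinetic inequality, given the cumulative Gram matrix.
-/

namespace Vale.Agent.P371

open Finset Matrix MeasureTheory Filter Topology
open scoped ComplexOrder

variable {N m : ℕ}

/-- Entrywise derivative of a matrix valued function. -/
def MatDeriv {a b : ℕ} (F : ℝ → Matrix (Fin a) (Fin b) ℂ) (F' : Matrix (Fin a) (Fin b) ℂ)
    (x : ℝ) : Prop :=
  ∀ i j, HasDerivAt (fun y => F y i j) (F' i j) x

lemma MatDeriv.mul {a b c : ℕ} {F : ℝ → Matrix (Fin a) (Fin b) ℂ}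
    {K : ℝ → Matrix (Fin b) (Fin c) ℂ} {F' : Matrix (Fin a) (Fin b) ℂ}
    {K' : Matrix (Fin b) (Fin c) ℂ} {x : ℝ} (hF : MatDeriv F F' x) (hK : MatDeriv K K' x) :
    MatDeriv (fun y => F y * K y) (F' * K x + F x * K') x := by
  intro i j
  simp only [Matrix.mul_apply, Matrix.add_apply, ← sum_add_distrib]
  exact HasDerivAt.fun_sum fun k _ => (hF i k).mul (hK k j)

lemma MatDeriv.add {a b : ℕ} {F K : ℝ → Matrix (Fin a) (Fin b) ℂ}
    {F' K' : Matrix (Fin a) (Fin b) ℂ} {x : ℝ} (hF : MatDeriv F F' x) (hK : MatDeriv K K' x) :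
    MatDeriv (fun y => F y + K y) (F' + K') x := fun i j => (hF i j).add (hK i j)

lemma MatDeriv.conjTranspose {a b : ℕ} {F : ℝ → Matrix (Fin a) (Fin b) ℂ}
    {F' : Matrix (Fin a) (Fin b) ℂ} {x : ℝ} (hF : MatDeriv F F' x) :
    MatDeriv (fun y => (F y)ᴴ) F'ᴴ x := fun i j => (hF j i).star

lemma MatDeriv.trace {a : ℕ} {F : ℝ → Mat a} {F' : Mat a} {x : ℝ} (hF : MatDeriv F F' x) :
    HasDerivAt (fun y => Matrix.trace (F y)) (Matrix.trace F') x :=
  HasDerivAt.fun_sum fun i _ => hF i i

lemma matDeriv_acIter {H D : ℝ → Mat N} {D' : Mat N} {x : ℝ} (hH : MatDeriv H (D x) x)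
    (hD : MatDeriv D D' x) (n : ℕ) :
    MatDeriv (fun y => acIter (H y) (D y) n) (acIter (H x) D' n + acDer (H x) (D x) n) x := by
  induction n with
  | zero =>
    intro i j
    simpa [acIter, acDer] using hD i j
  | succ n ih =>
    have := (hH.mul ih).add (ih.mul hH)
    intro i j
    refine (this i j).congr_deriv ?_
    refine congrArg (fun M : Mat N => M i j) ?_
    simp only [acIter, acDer, Matrix.mul_add, Matrix.add_mul]
    abel

lemma tendsto_matrix_mul_zero {a b c : ℕ} {l : Filter ℝ} {F : ℝ → Matrix (Fin a) (Fin b) ℂ}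
    {K : ℝ → Matrix (Fin b) (Fin c) ℂ} {C : ℝ} (hF : ∀ x i j, ‖F x i j‖ ≤ C)
    (hK : ∀ i j, Tendsto (fun x => K x i j) l (𝓝 0)) (i : Fin a) (j : Fin c) :
    Tendsto (fun x => (F x * K x) i j) l (𝓝 0) := by
  simp only [Matrix.mul_apply]
  rw [← Finset.sum_const_zero (s := (univ : Finset (Fin b)))]
  refine tendsto_finsetSum _ fun k _ => ?_
  refine squeeze_zero_norm (fun x => ?_) (by simpa using (hK k j).norm.const_mul C)
  rw [norm_mul]
  exact mul_le_mul_of_nonneg_right (hF x i k) (norm_nonneg _)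

lemma tendsto_matrix_mul_zero' {a b c : ℕ} {l : Filter ℝ} {F : ℝ → Matrix (Fin a) (Fin b) ℂ}
    {K : ℝ → Matrix (Fin b) (Fin c) ℂ} {C : ℝ} (hK : ∀ x i j, ‖K x i j‖ ≤ C)
    (hF : ∀ i j, Tendsto (fun x => F x i j) l (𝓝 0)) (i : Fin a) (j : Fin c) :
    Tendsto (fun x => (F x * K x) i j) l (𝓝 0) := by
  simp only [Matrix.mul_apply]
  rw [← Finset.sum_const_zero (s := (univ : Finset (Fin b)))]
  refine tendsto_finsetSum _ fun k _ => ?_
  refine squeeze_zero_norm (fun x => ?_) (by simpa using (hF i k).norm.mul_const C)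
  rw [norm_mul]
  exact mul_le_mul_of_nonneg_left (hK x k j) (norm_nonneg _)

/-- An `H¹` function with continuous derivative is bounded and vanishes at infinity. -/
lemma h1_bounded_tendsto {u u' : ℝ → ℂ} (hu : ∀ x, HasDerivAt u (u' x) x)
    (h2 : MemLp u 2 volume) (h2' : MemLp u' 2 volume) :
    (∃ C, ∀ x, ‖u x‖ ≤ C) ∧ Tendsto u atTop (𝓝 0) ∧ Tendsto u atBot (𝓝 0) := by
  set g : ℝ → ℂ := fun x => star (u x) * u x with hg
  set g' : ℝ → ℂ := fun x => star (u' x) * u x + star (u x) * u' x with hg'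
  have hd : ∀ x, HasDerivAt g (g' x) x := fun x => (hu x).star.mul (hu x)
  have hi : Integrable g := (h2.star.integrable_mul h2)
  have hi' : Integrable g' := (h2'.star.integrable_mul h2).add (h2.star.integrable_mul h2')
  have ht : Tendsto g atTop (𝓝 0) := tendsto_zero_of_hasDerivAt_of_integrableOn_Ioi
    (a := 0) (fun x _ => hd x) hi'.integrableOn hi.integrableOn
  have hb : Tendsto g atBot (𝓝 0) := tendsto_zero_of_hasDerivAt_of_integrableOn_Iic
    (a := 0) (fun x _ => hd x) hi'.integrableOn hi.integrableOn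
  have hn : ∀ x, ‖g x‖ = ‖u x‖ ^ 2 := fun x => by simp [hg, sq]
  have key : ∀ l : Filter ℝ, Tendsto g l (𝓝 0) → Tendsto u l (𝓝 0) := by
    intro l hl
    rw [tendsto_zero_iff_norm_tendsto_zero]
    have := (tendsto_zero_iff_norm_tendsto_zero.mp hl).sqrt
    simpa [hn, Real.sqrt_sq (norm_nonneg _)] using this
  refine ⟨⟨Real.sqrt (∫ x, ‖g' x‖), fun x => ?_⟩, key _ ht, key _ hb⟩
  refine Real.le_sqrt_of_sq_le ?_
  rw [← hn]
  have := integral_Iic_of_hasDerivAt_of_tendsto' (fun y (_ : y ∈ Set.Iic x) => hd y)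
    hi'.integrableOn hb
  rw [sub_zero] at this
  rw [← this]
  refine (norm_integral_le_integral_norm _).trans ?_
  exact setIntegral_le_integral hi'.norm (Eventually.of_forall fun y => norm_nonneg _)

lemma abs_trace_cube_le {d : Mat N} (hd : d.PosSemidef) :
    |(trace (d * d * d)).re| ≤ (N : ℝ) ^ 3 * (trace d).re ^ 3 := by
  simp only [trace, Matrix.diag, Matrix.mul_apply, sum_mul, Complex.re_sum]
  refine (abs_sum_le_sum_abs _ _).trans ?_
  refine (sum_le_sum fun a _ => (abs_sum_le_sum_abs _ _).trans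
    (sum_le_sum fun b _ => (abs_sum_le_sum_abs _ _).trans
      (sum_le_sum fun c _ => abs_triple_le hd c b a))).trans (le_of_eq ?_)
  simp [trace, Matrix.diag]
  ring

/-- Kinetic inequality, given a centred cumulative Gram matrix with spectrum in `[-r/2, r/2]`. -/
theorem kinetic_core {r : ℝ} (hr0 : 0 ≤ r) (hr : r < 1)
    (U U' : ℝ → Matrix (Fin m) (Fin N) ℂ) (hU : ∀ x, MatDeriv U (U' x) x)
    (hU'c : ∀ a j, Continuous fun x => U' x a j)
    (hU2 : ∀ a j, MemLp (fun x => U x a j) 2 volume)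
    (hU'2 : ∀ a j, MemLp (fun x => U' x a j) 2 volume)
    (H : ℝ → Mat N) (hH : ∀ x, (H x).IsHermitian) {CH : ℝ} (hHb : ∀ x i j, ‖H x i j‖ ≤ CH)
    (hHd : ∀ x, MatDeriv H ((U x)ᴴ * U x) x) (heig : ∀ x i, |(hH x).eigenvalues i| ≤ r / 2)
    (hrem : ∀ x (V : Mat N), RemPos (Vᴴ * ((U x)ᴴ * U x) * V)) :
    Real.pi ^ 2 / 4 * ∫ x, (trace ((U x)ᴴ * U x * ((U x)ᴴ * U x) * ((U x)ᴴ * U x))).re ≤
      ∫ x, (trace ((U' x)ᴴ * U' x)).re := by
  set D : ℝ → Mat N := fun x => (U x)ᴴ * U x with hD
  set D' : ℝ → Mat N := fun x => (U' x)ᴴ * U x + (U x)ᴴ * U' x with hD'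
  set T : ℝ → ℝ := fun x => (trace ((U' x)ᴴ * U' x)).re with hT
  set T3 : ℝ → ℝ := fun x => (trace (D x * D x * D x)).re with hT3
  set ρ : ℝ → ℝ := fun x => (trace (D x)).re with hρ
  have hUc : Continuous U := continuous_matrix fun a j =>
    continuous_iff_continuousAt.mpr fun x => (hU x a j).continuousAt
  have hHc : Continuous H := continuous_matrix fun a j =>
    continuous_iff_continuousAt.mpr fun x => (hHd x a j).continuousAt
  have hU'c' : Continuous U' := continuous_matrix hU'c
  have hDc : Continuous D := hUc.matrix_conjTranspose.matrix_mul hUc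
  have hD'c : Continuous D' := (hU'c'.matrix_conjTranspose.matrix_mul hUc).add
    (hUc.matrix_conjTranspose.matrix_mul hU'c')
  have hDd : ∀ x, MatDeriv D (D' x) x := fun x => (hU x).conjTranspose.mul (hU x)
  have hDp : ∀ x, (D x).PosSemidef := fun x => posSemidef_conjTranspose_mul_self _
  have hsq : ∀ (F : ℝ → Matrix (Fin m) (Fin N) ℂ),
      (∀ a j, MemLp (fun x => F x a j) 2 volume) →
      Integrable fun x => (trace ((F x)ᴴ * F x)).re := by
    intro F hF
    have : Integrable fun x => trace ((F x)ᴴ * F x) := by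
      simp only [trace, Matrix.diag, Matrix.mul_apply, conjTranspose_apply]
      exact integrable_finsetSum _ fun j _ => integrable_finsetSum _ fun a _ =>
        (hF a j).star.integrable_mul (hF a j)
    exact this.re
  have hρi : Integrable ρ := hsq U hU2
  have hTi : Integrable T := hsq U' hU'2
  have hρ0 : ∀ x, 0 ≤ ρ x := fun x => (Complex.le_def.mp (hDp x).trace_nonneg).1
  have hlim := fun a j => h1_bounded_tendsto (fun x => hU x a j) (hU2 a j) (hU'2 a j)
  choose CU hCU using fun a j => (hlim a j).1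
  have hUb : ∀ x a j, ‖U x a j‖ ≤ ∑ b, ∑ k, |CU b k| := fun x a j => by
    refine (hCU a j x).trans ((le_abs_self _).trans ?_)
    exact (single_le_sum (f := fun k => |CU a k|) (fun _ _ => abs_nonneg _) (mem_univ j)).trans
      (single_le_sum (f := fun b => ∑ k, |CU b k|)
        (fun _ _ => sum_nonneg fun _ _ => abs_nonneg _) (mem_univ a))
  set CB := ∑ b, ∑ k, |CU b k|
  obtain ⟨R, hR⟩ : ∃ R, ∀ x, ρ x ≤ R := by
    refine ⟨∑ _j : Fin N, ∑ _a : Fin m, CB * CB, fun x => ?_⟩
    simp only [hρ, hD, trace, Matrix.diag, Matrix.mul_apply, conjTranspose_apply, Complex.re_sum]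
    refine sum_le_sum fun j _ => sum_le_sum fun a _ => (Complex.re_le_norm _).trans ?_
    rw [norm_mul, norm_star]
    exact mul_le_mul (hUb x a j) (hUb x a j) (norm_nonneg _) ((norm_nonneg _).trans (hUb x a j))
  have hρc : Continuous ρ := Complex.continuous_re.comp hDc.matrix_trace
  have hρ3 : Integrable fun x => ρ x ^ 3 := by
    refine (hρi.const_mul (R ^ 2)).mono' (hρc.pow 3).aestronglyMeasurable
      (Eventually.of_forall fun x => ?_)
    rw [Real.norm_eq_abs, abs_of_nonneg (pow_nonneg (hρ0 x) 3)]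
    calc ρ x ^ 3 = ρ x ^ 2 * ρ x := by ring
      _ ≤ R ^ 2 * ρ x := by
        gcongr
        · exact hρ0 x
        · exact hρ0 x
        · exact hR x
  have hT3c : Continuous T3 :=
    Complex.continuous_re.comp (((hDc.matrix_mul hDc).matrix_mul hDc).matrix_trace)
  have hT3i : Integrable T3 := (hρ3.const_mul ((N : ℝ) ^ 3)).mono' hT3c.aestronglyMeasurable
    (Eventually.of_forall fun x => abs_trace_cube_le (hDp x))
  obtain ⟨M, hM⟩ : ∃ M, ∀ u ∈ Set.Icc (-r) r, ‖fcal u‖ ≤ M := isCompact_Icc.exists_bound_of_continuousOn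
    fun u hu => (hasDerivAt_fcal ⟨by linarith [hu.1], by linarith [hu.2]⟩).continuousAt.continuousWithinAt
  have main : ∀ η, 0 < η → η ≤ 1 →
      (∫ x, (Real.pi ^ 2 / 4 * T3 x - η * (2 * M + 2) * (N : ℝ) ^ 3 * ρ x ^ 3)) ≤ ∫ x, T x := by
    intro η hη hη1
    obtain ⟨c, K, happ⟩ := exists_poly_approx hr0 hr hη
    set Φ : ℝ → ℂ := fun x => ∑ n ∈ range K, (c n : ℂ) * trace (D x * acIter (H x) (D x) n)
    set A : ℝ → Mat N := fun x => ∑ n ∈ range K, (c n : ℂ) • acIter (H x) (D x) n
    set B : ℝ → Mat N := fun x => ∑ n ∈ range K, (c n : ℂ) • acDer (H x) (D x) n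
    set Φ' : ℝ → ℂ := fun x => 2 * trace (A x * D' x) + trace (D x * B x)
    have hYc : ∀ n, Continuous fun x => acIter (H x) (D x) n := by
      intro n
      induction n with
      | zero => exact hDc
      | succ n ih => exact (hHc.matrix_mul ih).add (ih.matrix_mul hHc)
    have hZc : ∀ n, Continuous fun x => acDer (H x) (D x) n := by
      intro n
      induction n with
      | zero => exact continuous_const
      | succ n ih =>
        exact ((hHc.matrix_mul ih).add (ih.matrix_mul hHc)).add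
          ((hDc.matrix_mul (hYc n)).add ((hYc n).matrix_mul hDc))
    have hΦ' : ∀ x, HasDerivAt Φ (Φ' x) x := by
      intro x
      have h : HasDerivAt Φ (∑ n ∈ range K, (c n : ℂ) *
          trace (D' x * acIter (H x) (D x) n + D x * (acIter (H x) (D' x) n + acDer (H x) (D x) n)))
          x := HasDerivAt.fun_sum fun n _ =>
        (((hDd x).mul (matDeriv_acIter (hHd x) (hDd x) n)).trace).const_mul _
      refine h.congr_deriv ?_
      simp only [Φ', A, B, Finset.sum_mul, Finset.mul_sum, trace_sum, Matrix.smul_mul,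
        Matrix.mul_smul, trace_smul, smul_eq_mul, ← sum_add_distrib]
      refine sum_congr rfl fun n _ => ?_
      rw [trace_add, Matrix.mul_add, trace_add, trace_acIter_symm (H x) (D x) (D' x) n,
        trace_mul_comm (D' x)]
      ring
    have hΦ'c : Continuous Φ' := by
      refine (continuous_const.mul (Continuous.matrix_trace ?_)).add (Continuous.matrix_trace ?_)
      · exact (continuous_finsetSum _ fun n _ => (hYc n).const_smul (c n : ℂ)).matrix_mul hD'c
      · exact hDc.matrix_mul (continuous_finsetSum _ fun n _ => (hZc n).const_smul (c n : ℂ))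
    have hle : ∀ x, Real.pi ^ 2 / 4 * T3 x - η * (2 * M + 2) * (N : ℝ) ^ 3 * ρ x ^ 3 ≤
        T x - (Φ' x).re / 2 := by
      intro x
      have h1 := pointwise c K hr hr0 hη1 happ hM (hH x) (heig x) (hDp x) (hrem x)
      have h2 := square_completion (U x) (U' x) (A x) (by
        show (A x)ᴴ = A x
        simp only [A, conjTranspose_sum, conjTranspose_smul, Complex.star_def, Complex.conj_ofReal,
          (acIter_isHermitian (hH x) (hDp x).isHermitian _).eq])
      simp only [Φ', Complex.add_re, Complex.mul_re, Complex.re_ofNat, Complex.im_ofNat, zero_mul,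
        sub_zero]
      dsimp only [T3, ρ, T] at *
      linarith
    have hΦlim : ∀ l : Filter ℝ, (∀ a j, Tendsto (fun x => U x a j) l (𝓝 0)) →
        Tendsto Φ l (𝓝 0) := by
      intro l hl
      have hD0 : ∀ i j, Tendsto (fun x => D x i j) l (𝓝 0) := fun i j =>
        tendsto_matrix_mul_zero (C := CB)
          (fun x a b => by rw [conjTranspose_apply, norm_star]; exact hUb x b a) hl i j
      have hY : ∀ n i j, Tendsto (fun x => acIter (H x) (D x) n i j) l (𝓝 0) := by
        intro n
        induction n with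
        | zero => exact hD0
        | succ n ih =>
          intro i j
          simpa [acIter] using
            (tendsto_matrix_mul_zero hHb ih i j).add (tendsto_matrix_mul_zero' hHb ih i j)
      rw [← Finset.sum_const_zero (s := range K)]
      refine tendsto_finsetSum _ fun n _ => ?_
      rw [← mul_zero ((c n : ℂ))]
      refine Tendsto.const_mul _ ?_
      simp only [trace, Matrix.diag, Matrix.mul_apply]
      rw [← Finset.sum_const_zero (s := (univ : Finset (Fin N)))]
      refine tendsto_finsetSum _ fun i _ => ?_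
      rw [← Finset.sum_const_zero (s := (univ : Finset (Fin N)))]
      refine tendsto_finsetSum _ fun k _ => ?_
      simpa using (hD0 i k).mul (hY n k i)
    have hgi : Integrable fun x => Real.pi ^ 2 / 4 * T3 x -
        η * (2 * M + 2) * (N : ℝ) ^ 3 * ρ x ^ 3 := (hT3i.const_mul _).sub (hρ3.const_mul _)
    have hΦre : ∀ x, HasDerivAt (fun y => (Φ y).re) (Φ' x).re x := fun x =>
      Complex.reCLM.hasFDerivAt.comp_hasDerivAt x (hΦ' x)
    have hΦre' : Continuous fun x => (Φ' x).re := Complex.continuous_re.comp hΦ'c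
    have hfin : ∀ L : ℝ, 0 ≤ L →
        (∫ x in (-L)..L, (Real.pi ^ 2 / 4 * T3 x - η * (2 * M + 2) * (N : ℝ) ^ 3 * ρ x ^ 3)) ≤
          (∫ x in (-L)..L, T x) - ((Φ L).re - (Φ (-L)).re) / 2 := by
      intro L hL
      refine (intervalIntegral.integral_mono_on (by linarith) hgi.intervalIntegrable
        (hTi.intervalIntegrable.sub ((hΦre'.div_const 2).intervalIntegrable _ _))
        fun x _ => hle x).trans (le_of_eq ?_)
      rw [intervalIntegral.integral_sub hTi.intervalIntegrable
          ((hΦre'.div_const 2).intervalIntegrable _ _), intervalIntegral.integral_div,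
        intervalIntegral.integral_eq_sub_of_hasDerivAt (fun x _ => hΦre x)
          (hΦre'.intervalIntegrable _ _)]
    have ht1 : Tendsto (fun L => (Φ L).re) atTop (𝓝 0) := by
      simpa [Function.comp_def] using (Complex.continuous_re.tendsto 0).comp (hΦlim atTop fun a j => (hlim a j).2.1)
    have ht2 : Tendsto (fun L => (Φ (-L)).re) atTop (𝓝 0) := by
      simpa [Function.comp_def] using ((Complex.continuous_re.tendsto 0).comp
        (hΦlim atBot fun a j => (hlim a j).2.2)).comp tendsto_neg_atTop_atBot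
    refine le_of_tendsto_of_tendsto
      (intervalIntegral_tendsto_integral hgi tendsto_neg_atTop_atBot tendsto_id) ?_
      ((eventually_ge_atTop 0).mono hfin)
    simpa using (intervalIntegral_tendsto_integral hTi tendsto_neg_atTop_atBot tendsto_id).sub
      ((ht1.sub ht2).div_const 2)
  have hev : ∀ᶠ η in 𝓝[>] (0 : ℝ), Real.pi ^ 2 / 4 * (∫ x, T3 x) -
      η * ((2 * M + 2) * (N : ℝ) ^ 3 * ∫ x, ρ x ^ 3) ≤ ∫ x, T x := by
    filter_upwards [Ioc_mem_nhdsGT (zero_lt_one' ℝ)] with η hη
    have := main η hη.1 hη.2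
    rw [integral_sub (hT3i.const_mul _) (hρ3.const_mul _), integral_const_mul,
      integral_const_mul] at this
    linarith
  refine le_of_tendsto ?_ hev
  have hcont : Continuous fun η : ℝ => Real.pi ^ 2 / 4 * (∫ x, T3 x) -
      η * ((2 * M + 2) * (N : ℝ) ^ 3 * ∫ x, ρ x ^ 3) := by fun_prop
  simpa using (hcont.tendsto 0).mono_left nhdsWithin_le_nhds

end Vale.Agent.P371
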