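import Vale.Agent.P371.Kinetic
import Vale.Agent.P371.Defs

/-!
From the kinetic inequality to the Lieb-Thirring bound.
-/

namespace Vale.Agent.P371

open MeasureTheory Finset Matrix Filter Topology
open scoped ComplexOrder ComplexConjugate

variable {m N : ℕ}

/-- The remainder positivity for all Gram matrices of `m × N` matrices. -/
def RemAll (m : ℕ) : Prop := ∀ (N : ℕ) (U : Matrix (Fin m) (Fin N) ℂ), RemPos (Uᴴ * U)

lemma hasDerivAt_integral_Iic {f : ℝ → ℂ} (hc : Continuous f) (hi : Integrable f) (x : ℝ) :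
    HasDerivAt (fun y => ∫ t in Set.Iic y, f t) (f x) x := by
  have e : (fun y => ∫ t in Set.Iic y, f t) =
      fun y => (∫ t in Set.Iic 0, f t) + ∫ t in (0 : ℝ)..y, f t := by
    funext y
    rw [← intervalIntegral.integral_Iic_sub_Iic hi.integrableOn hi.integrableOn]
    abel
  rw [e]
  exact (hc.integral_hasStrictDerivAt 0 x).hasDerivAt.const_add _

lemma quad_form_re (D : Mat N) (v : Fin N → ℂ) :
    (star v ⬝ᵥ D *ᵥ v).re = (∑ i, ∑ j, star (v i) * D i j * v j).re := by
  simp only [dotProduct, Matrix.mulVec, Pi.star_apply, Finset.mul_sum, mul_assoc]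

/-- The sharp kinetic inequality for families orthonormal in `L²(ℝ; ℂ^m)`. -/
theorem kinetic_inequality (hm : RemAll m) (U U' : ℝ → Matrix (Fin m) (Fin N) ℂ)
    (hU : ∀ x, MatDeriv U (U' x) x) (hU'c : ∀ a j, Continuous fun x => U' x a j)
    (hU2 : ∀ a j, MemLp (fun x => U x a j) 2 volume)
    (hU'2 : ∀ a j, MemLp (fun x => U' x a j) 2 volume)
    (horth : ∀ i j, ∫ x, ((U x)ᴴ * U x) i j = if i = j then 1 else 0) :
    Real.pi ^ 2 / 4 * ∫ x, (trace ((U x)ᴴ * U x * ((U x)ᴴ * U x) * ((U x)ᴴ * U x))).re ≤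
      ∫ x, (trace ((U' x)ᴴ * U' x)).re := by
  set D : ℝ → Mat N := fun x => (U x)ᴴ * U x with hD
  have hUc : Continuous U := continuous_matrix fun a j =>
    continuous_iff_continuousAt.mpr fun x => (hU x a j).continuousAt
  have hDc : Continuous D := hUc.matrix_conjTranspose.matrix_mul hUc
  have hDi : ∀ i j, Integrable fun x => D x i j := by
    intro i j
    simp only [hD, Matrix.mul_apply, conjTranspose_apply]
    exact integrable_finsetSum _ fun a _ => (hU2 a i).star.integrable_mul (hU2 a j)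
  set G : ℝ → Mat N := fun x => fun i j => ∫ t in Set.Iic x, D t i j with hG
  have hDh : ∀ t i j, star (D t j i) = D t i j := fun t i j =>
    (posSemidef_conjTranspose_mul_self (U t)).isHermitian.apply i j
  have hGh : ∀ x, (G x).IsHermitian := fun x => by
    ext i j
    show star (∫ t in Set.Iic x, D t j i) = ∫ t in Set.Iic x, D t i j
    rw [Complex.star_def, ← integral_conj]
    exact integral_congr_ae (Eventually.of_forall fun t => hDh t i j)
  have hGquad : ∀ x (v : Fin N → ℂ), (∑ i, ‖v i‖ ^ 2 = 1) →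
      (star v ⬝ᵥ G x *ᵥ v).re ∈ Set.Icc (0 : ℝ) 1 := by
    intro x v hv
    set q : ℝ → ℂ := fun t => ∑ i, ∑ j, star (v i) * D t i j * v j with hq
    have hqi : Integrable q := integrable_finsetSum _ fun i _ => integrable_finsetSum _ fun j _ =>
      ((hDi i j).const_mul _).mul_const _
    have hq0 : ∀ t, 0 ≤ (q t).re := fun t => by
      rw [hq, ← quad_form_re]
      exact (posSemidef_conjTranspose_mul_self (U t)).re_dotProduct_nonneg v
    have hint : ∀ μ : Measure ℝ, (∀ i j, Integrable (fun t => D t i j) μ) →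
        ∫ t, q t ∂μ = ∑ i, ∑ j, star (v i) * (∫ t, D t i j ∂μ) * v j := by
      intro μ hμ
      simp only [hq]
      rw [integral_finsetSum _ fun i _ => integrable_finsetSum _ fun j _ =>
        ((hμ i j).const_mul _).mul_const _]
      refine sum_congr rfl fun i _ => ?_
      rw [integral_finsetSum _ fun j _ => ((hμ i j).const_mul _).mul_const _]
      simp [integral_mul_const, integral_const_mul]
    have e1 : (star v ⬝ᵥ G x *ᵥ v).re = ∫ t in Set.Iic x, (q t).re := by
      rw [quad_form_re]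
      simp only [hG]
      rw [← hint _ fun i j => (hDi i j).integrableOn]
      exact (integral_re hqi.integrableOn).symm
    have e2 : ∫ t, (q t).re = 1 := by
      refine ((integral_re hqi).trans ?_)
      rw [hint _ hDi]
      simp only [hD, horth, mul_ite, mul_one, mul_zero, ite_mul, zero_mul, Finset.sum_ite_eq,
        Finset.mem_univ, if_true]
      rw [map_sum]
      refine (sum_congr rfl fun i _ => ?_).trans hv
      rw [Complex.star_def, Complex.conj_mul']
      simp [← Complex.ofReal_pow]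
    rw [e1]
    exact ⟨setIntegral_nonneg measurableSet_Iic fun t _ => hq0 t,
      (setIntegral_le_integral hqi.re (Eventually.of_forall hq0)).trans e2.le⟩
  have hGb : ∀ x i j, ‖G x i j‖ ≤ ∑ a, ∑ b, ∫ t, ‖D t a b‖ := by
    intro x i j
    refine (norm_integral_le_integral_norm _).trans
      ((setIntegral_le_integral (hDi i j).norm (Eventually.of_forall fun t => norm_nonneg _)).trans ?_)
    exact (single_le_sum (f := fun b => ∫ t, ‖D t i b‖)
      (fun b _ => integral_nonneg fun t => norm_nonneg _) (mem_univ j)).trans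
      (single_le_sum (f := fun a => ∑ b, ∫ t, ‖D t a b‖)
        (fun a _ => sum_nonneg fun b _ => integral_nonneg fun t => norm_nonneg _) (mem_univ i))
  set I3 := ∫ x, (trace (D x * D x * D x)).re
  set IT := ∫ x, (trace ((U' x)ᴴ * U' x)).re
  have main : ∀ r, 0 < r → r < 1 → r ^ 2 * (Real.pi ^ 2 / 4 * I3) ≤ IT := by
    intro r hr0 hr
    set s : ℂ := (Real.sqrt r : ℂ) with hs
    have hss : star s * s = (r : ℂ) := by
      rw [hs, Complex.star_def, Complex.conj_ofReal, ← Complex.ofReal_mul,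
        Real.mul_self_sqrt hr0.le]
    set H : ℝ → Mat N := fun x => (r : ℂ) • G x - ((r / 2 : ℝ) : ℂ) • (1 : Mat N) with hH
    have hHh : ∀ x, (H x).IsHermitian := fun x => by
      show (H x)ᴴ = H x
      simp [hH, (hGh x).eq]
    have hmul : ∀ (X : Matrix (Fin m) (Fin N) ℂ), (s • X)ᴴ * (s • X) = (r : ℂ) • (Xᴴ * X) := by
      intro X
      rw [conjTranspose_smul, Matrix.smul_mul, Matrix.mul_smul, smul_smul, hss]
    have key := kinetic_core hr0.le hr (fun x => s • U x) (fun x => s • U' x)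
      (fun x a j => by simpa using (hU x a j).const_mul s)
      (fun a j => by simpa [Pi.smul_def] using (hU'c a j).const_smul s)
      (fun a j => by simpa [Pi.smul_def] using (hU2 a j).const_smul s)
      (fun a j => by simpa [Pi.smul_def] using (hU'2 a j).const_smul s)
      H hHh (CH := (∑ a, ∑ b, ∫ t, ‖D t a b‖) + 1)
      (fun x i j => by
        have h1 : ‖((r / 2 : ℝ) : ℂ) * (1 : Mat N) i j‖ ≤ 1 := by
          rw [norm_mul, Complex.norm_real, Real.norm_eq_abs, abs_of_pos (half_pos hr0)]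
          have : ‖(1 : Mat N) i j‖ ≤ 1 := by
            rw [Matrix.one_apply]; split_ifs <;> simp
          nlinarith [norm_nonneg ((1 : Mat N) i j)]
        have h2 : ‖(r : ℂ) * G x i j‖ ≤ ∑ a, ∑ b, ∫ t, ‖D t a b‖ := by
          rw [norm_mul, Complex.norm_real, Real.norm_eq_abs, abs_of_pos hr0]
          exact (mul_le_of_le_one_left (norm_nonneg _) hr.le).trans (hGb x i j)
        simp only [hH, Matrix.sub_apply, Matrix.smul_apply, smul_eq_mul]
        exact (norm_sub_le _ _).trans (add_le_add h2 h1))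
      (fun x i j => by
        have h : HasDerivAt (fun y => G y i j) (D x i j) x :=
          hasDerivAt_integral_Iic (continuous_pi_iff.mp (continuous_pi_iff.mp hDc i) j) (hDi i j) x
        rw [hmul]
        simpa [hH] using (h.const_mul (r : ℂ)).sub_const (((r / 2 : ℝ) : ℂ) * (1 : Mat N) i j))
      (fun x i => by
        set e : Fin N → ℂ := ⇑((hHh x).eigenvectorBasis i) with he
        have hn : ∑ k, ‖e k‖ ^ 2 = 1 := by
          rw [← EuclideanSpace.norm_sq_eq]
          simp [((hHh x).eigenvectorBasis.orthonormal).1 i]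
        have hv := (hHh x).eigenvalues_eq i
        have hq := hGquad x e hn
        have hee : (star e ⬝ᵥ e).re = 1 := by
          refine Eq.trans ?_ hn
          simp [dotProduct, Complex.conj_mul', ← Complex.ofReal_pow]
        have : (hHh x).eigenvalues i = r * (star e ⬝ᵥ G x *ᵥ e).re - r / 2 := by
          rw [hv]
          show (star e ⬝ᵥ H x *ᵥ e).re = _
          simp only [hH, Matrix.sub_mulVec, Matrix.smul_mulVec, Matrix.one_mulVec,
            dotProduct_sub, dotProduct_smul, smul_eq_mul, Complex.sub_re, Complex.re_ofReal_mul,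
            hee, mul_one]
        rw [this, abs_le]
        constructor <;> nlinarith [hq.1, hq.2])
      (fun x V => by
        have e : Vᴴ * ((s • U x)ᴴ * (s • U x)) * V = (s • U x * V)ᴴ * (s • U x * V) := by
          simp only [conjTranspose_mul, Matrix.mul_assoc]
        rw [e]
        exact hm N _)
    have e3 : ∀ x, (trace (((s • U x)ᴴ * (s • U x)) * ((s • U x)ᴴ * (s • U x)) *
        ((s • U x)ᴴ * (s • U x)))).re = r ^ 3 * (trace (D x * D x * D x)).re := by
      intro x
      simp only [hmul, Matrix.smul_mul, Matrix.mul_smul, smul_smul, trace_smul, smul_eq_mul]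
      rw [show (r : ℂ) * ((r : ℂ) * (r : ℂ)) = ((r ^ 3 : ℝ) : ℂ) by push_cast; ring,
        Complex.re_ofReal_mul]
    have e4 : ∀ x, (trace ((s • U' x)ᴴ * (s • U' x))).re =
        r * (trace ((U' x)ᴴ * U' x)).re := by
      intro x
      rw [hmul, trace_smul, smul_eq_mul, Complex.re_ofReal_mul]
    simp only [e3, e4, integral_const_mul] at key
    have : r * (r ^ 2 * (Real.pi ^ 2 / 4 * I3)) ≤ r * IT := by
      refine le_trans (le_of_eq ?_) key
      ring
    exact le_of_mul_le_mul_left this hr0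
  have hlim : Tendsto (fun r : ℝ => r ^ 2 * (Real.pi ^ 2 / 4 * I3)) (𝓝[<] 1)
      (𝓝 (Real.pi ^ 2 / 4 * I3)) := by
    have hc : Continuous fun r : ℝ => r ^ 2 * (Real.pi ^ 2 / 4 * I3) := by fun_prop
    simpa using (hc.tendsto 1).mono_left nhdsWithin_le_nhds
  refine le_of_tendsto hlim ?_
  filter_upwards [Ioo_mem_nhdsLT (zero_lt_one' ℝ)] with r hr
  exact main r hr.1 hr.2

lemma young_three_halves {w ρ : ℝ} (hw : 0 ≤ w) (hρ : 0 ≤ ρ) :
    w * ρ ≤ 4 / (3 * Real.sqrt 3 * Real.pi) * w ^ (3 / 2 : ℝ) + Real.pi ^ 2 / 4 * ρ ^ 3 := by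
  have hs3 : Real.sqrt 3 ^ 2 = 3 := Real.sq_sqrt (by norm_num)
  have hp := Real.pi_pos
  have h3 : 0 < Real.sqrt 3 := Real.sqrt_pos.mpr (by norm_num)
  set s := Real.sqrt w with hs
  have hs2 : s ^ 2 = w := Real.sq_sqrt hw
  have hw32 : w ^ (3 / 2 : ℝ) = s ^ 3 := by
    rw [hs, Real.sqrt_eq_rpow, ← Real.rpow_natCast, ← Real.rpow_mul hw]
    norm_num
  set y := Real.sqrt 3 * Real.pi * ρ / 2 with hy
  have hρy : ρ = 2 * y / (Real.sqrt 3 * Real.pi) := by rw [hy]; field_simp
  have hy0 : 0 ≤ y := by positivity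
  have key : 6 * s ^ 2 * y ≤ 4 * s ^ 3 + 2 * y ^ 3 := by
    nlinarith [mul_nonneg (sq_nonneg (s - y)) (by positivity : 0 ≤ 2 * y + 4 * s)]
  rw [hw32, ← hs2, hρy]
  have : (4 / (3 * Real.sqrt 3 * Real.pi) * s ^ 3 +
      Real.pi ^ 2 / 4 * (2 * y / (Real.sqrt 3 * Real.pi)) ^ 3) -
      s ^ 2 * (2 * y / (Real.sqrt 3 * Real.pi)) =
      (4 * s ^ 3 + 2 * y ^ 3 - 6 * s ^ 2 * y) / (3 * Real.sqrt 3 * Real.pi) := by
    have e : Real.sqrt 3 ^ 3 = 3 * Real.sqrt 3 := by rw [pow_succ, hs3]
    field_simp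
    linear_combination (-(8 : ℝ) * y ^ 3) * hs3
  have h0 : 0 ≤ (4 * s ^ 3 + 2 * y ^ 3 - 6 * s ^ 2 * y) / (3 * Real.sqrt 3 * Real.pi) :=
    div_nonneg (by linarith) (by positivity)
  linarith

/-- A diagonal entry `c` of a positive semidefinite `R` has `c³ ≤ (R³)` at the same place. -/
lemma cube_diag_le {R : Matrix (Fin m) (Fin m) ℂ} (hR : R.PosSemidef) (i : Fin m) :
    (R i i).re ^ 3 ≤ ((R * R * R) i i).re := by
  set c := (R i i).re with hc
  have hc0 : 0 ≤ c := (Complex.le_def.mp (hR.diag_nonneg (i := i))).1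
  set Q := R - (c : ℂ) • (1 : Matrix (Fin m) (Fin m) ℂ)
  have hQ : Qᴴ = Q := by simp [Q, hR.isHermitian.eq]
  have hP : (R + ((2 * c : ℝ) : ℂ) • (1 : Matrix (Fin m) (Fin m) ℂ)).PosSemidef :=
    hR.add (Matrix.PosSemidef.one.smul (by rw [Complex.le_def]; simp [hc0]))
  have h := (hP.conjTranspose_mul_mul_same Q).diag_nonneg (i := i)
  have h' := (Complex.le_def.mp h).1
  rw [hQ] at h'
  have e : Q * (R + ((2 * c : ℝ) : ℂ) • (1 : Matrix (Fin m) (Fin m) ℂ)) * Q =
      R * R * R - ((3 * c ^ 2 : ℝ) : ℂ) • R + ((2 * c ^ 3 : ℝ) : ℂ) • 1 := by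
    simp only [Q, Matrix.sub_mul, Matrix.mul_sub, Matrix.add_mul, Matrix.mul_add,
      Matrix.smul_mul, Matrix.mul_smul, Matrix.one_mul, Matrix.mul_one, smul_add, smul_sub,
      smul_smul, Complex.ofReal_mul, Complex.ofReal_pow, Complex.ofReal_ofNat]
    module
  rw [e] at h'
  simp only [Matrix.add_apply, Matrix.sub_apply, Matrix.smul_apply, Matrix.one_apply_eq,
    smul_eq_mul, Complex.add_re, Complex.sub_re, Complex.re_ofReal_mul, Complex.one_re,
    Complex.zero_re, ← hc] at h'
  nlinarith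

lemma trace_mul_le {W R : Matrix (Fin m) (Fin m) ℂ} (hW : W.PosSemidef) (hR : R.PosSemidef) :
    (trace (W * R)).re ≤ 4 / (3 * Real.sqrt 3 * Real.pi) * trRpow W (3 / 2) +
      Real.pi ^ 2 / 4 * (trace (R * R * R)).re := by
  set hH := hW.isHermitian
  let V : Matrix (Fin m) (Fin m) ℂ := hH.eigenvectorUnitary
  have hV : V * Vᴴ = 1 := Unitary.coe_mul_star_self hH.eigenvectorUnitary
  set S := Vᴴ * R * V with hS
  have hSp : S.PosSemidef := hR.conjTranspose_mul_mul_same V
  have e1 : trace (W * R) = ∑ i, (hH.eigenvalues i : ℂ) * S i i := by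
    have e := hH.spectral_theorem
    simp only [Unitary.conjStarAlgAut_apply] at e
    change W = V * _ * Vᴴ at e
    conv_lhs => rw [e]
    rw [Matrix.mul_assoc, Matrix.mul_assoc, trace_mul_comm V, Matrix.mul_assoc, ← hS]
    simp [trace, diagonal_mul]
  have e2 : trace (R * R * R) = trace (S * S * S) := by
    have : S * S * S = Vᴴ * (R * R * R) * V := by
      simp only [hS, Matrix.mul_assoc]
      rw [← Matrix.mul_assoc V Vᴴ, hV, Matrix.one_mul, ← Matrix.mul_assoc V Vᴴ, hV,
        Matrix.one_mul]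
    rw [this, trace_mul_cycle Vᴴ, hV, Matrix.one_mul]
  rw [e1, e2, trRpow, dif_pos hH, mul_sum, trace, Complex.re_sum, Complex.re_sum, mul_sum,
    ← sum_add_distrib]
  refine sum_le_sum fun i _ => ?_
  rw [Complex.re_ofReal_mul]
  refine (young_three_halves (hW.eigenvalues_nonneg i)
    (Complex.le_def.mp (hSp.diag_nonneg (i := i))).1).trans ?_
  gcongr
  exact cube_diag_le hSp i

theorem sum_negForm_le (hm : RemAll m) {W : ℝ → Matrix (Fin m) (Fin m) ℂ} (hW : IsPotential W)
    {ψ : Fin N → ℝ → EuclideanSpace ℂ (Fin m)} (hψ : IsTrialFamily ψ) :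
    ∑ j, negForm W (ψ j) ≤ 4 / (3 * Real.sqrt 3 * Real.pi) * potentialNorm W := by
  set U : ℝ → Matrix (Fin m) (Fin N) ℂ := fun x => Matrix.of fun a j => ψ j x a with hUdef
  set U' : ℝ → Matrix (Fin m) (Fin N) ℂ := fun x => Matrix.of fun a j => deriv (ψ j) x a with hU'def
  have hU : ∀ x, MatDeriv U (U' x) x := fun x a j =>
    ((EuclideanSpace.proj (𝕜 := ℂ) a).restrictScalars ℝ).hasFDerivAt.comp_hasDerivAt x
      ((hψ.contDiff j).differentiable (by norm_num) x).hasDerivAt
  have hUc : ∀ a j, Continuous fun x => U x a j := fun a j =>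
    (EuclideanSpace.proj (𝕜 := ℂ) a).continuous.comp (hψ.contDiff j).continuous
  have hU'c : ∀ a j, Continuous fun x => U' x a j := fun a j =>
    (EuclideanSpace.proj (𝕜 := ℂ) a).continuous.comp ((hψ.contDiff j).continuous_deriv le_rfl)
  have hU2 : ∀ a j, MemLp (fun x => U x a j) 2 volume := fun a j =>
    (hψ.memLp j).continuousLinearMap_comp (EuclideanSpace.proj (𝕜 := ℂ) a)
  have hU'2 : ∀ a j, MemLp (fun x => U' x a j) 2 volume := fun a j =>
    (hψ.memLp_deriv j).continuousLinearMap_comp (EuclideanSpace.proj (𝕜 := ℂ) a)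
  have horth : ∀ i j, ∫ x, ((U x)ᴴ * U x) i j = if i = j then 1 else 0 := by
    intro i j
    rw [← hψ.orthonormal i j]
    refine integral_congr_ae (Eventually.of_forall fun x => ?_)
    simp [Matrix.mul_apply, hUdef, PiLp.inner_apply, mul_comm]
  have key := kinetic_inequality hm U U' hU hU'c hU2 hU'2 horth
  set P : Fin N → ℝ → ℝ := fun j x => (∑ a, ∑ b, conj (ψ j x a) * W x a b * ψ j x b).re
  set L := 4 / (3 * Real.sqrt 3 * Real.pi)
  set T3 : ℝ → ℝ := fun x =>
    (trace ((U x)ᴴ * U x * ((U x)ᴴ * U x) * ((U x)ᴴ * U x))).re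
  have hP0 : ∀ j x, 0 ≤ P j x := fun j x => by
    have := (hW.posSemidef x).re_dotProduct_nonneg fun a => ψ j x a
    rwa [show RCLike.re (star (fun a => ψ j x a) ⬝ᵥ W x *ᵥ fun a => ψ j x a) = P j x from
      quad_form_re _ _] at this
  have hsum : ∀ x, ∑ j, P j x = (trace (W x * (U x * (U x)ᴴ))).re := by
    intro x
    simp only [P, trace, Matrix.diag, Matrix.mul_apply, conjTranspose_apply, mul_sum,
      Complex.re_sum, hUdef]
    rw [sum_comm]
    refine sum_congr rfl fun a _ => ?_
    rw [sum_comm]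
    refine sum_congr rfl fun b _ => sum_congr rfl fun j _ => congrArg Complex.re ?_
    rw [Complex.star_def]
    simp only [Matrix.of_apply]
    ring
  have hle : ∀ x, ∑ j, P j x ≤ L * trRpow (W x) (3 / 2) + Real.pi ^ 2 / 4 * T3 x := by
    intro x
    rw [hsum]
    refine (trace_mul_le (hW.posSemidef x) (posSemidef_self_mul_conjTranspose _)).trans
      (le_of_eq ?_)
    show _ = _ + Real.pi ^ 2 / 4 * (trace ((U x)ᴴ * U x * ((U x)ᴴ * U x) * ((U x)ᴴ * U x))).re
    have e : trace (U x * (U x)ᴴ * (U x * (U x)ᴴ) * (U x * (U x)ᴴ)) =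
        trace ((U x)ᴴ * U x * ((U x)ᴴ * U x) * ((U x)ᴴ * U x)) := by
      simp only [Matrix.mul_assoc]
      rw [trace_mul_comm (U x)]
      simp only [Matrix.mul_assoc]
    rw [e]
  have hUc' : Continuous U := continuous_matrix hUc
  have hDc : Continuous fun x => (U x)ᴴ * U x := hUc'.matrix_conjTranspose.matrix_mul hUc'
  have hT3i : Integrable T3 := by
    obtain ⟨C, hC⟩ : ∃ C, ∀ x a j, ‖U x a j‖ ≤ C := by
      choose C hC using fun a j => (h1_bounded_tendsto (fun x => hU x a j) (hU2 a j) (hU'2 a j)).1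
      refine ⟨∑ b, ∑ k, |C b k|, fun x a j => (hC a j x).trans ((le_abs_self _).trans ?_)⟩
      exact (single_le_sum (f := fun k => |C a k|) (fun _ _ => abs_nonneg _) (mem_univ j)).trans
        (single_le_sum (f := fun b => ∑ k, |C b k|)
          (fun _ _ => sum_nonneg fun _ _ => abs_nonneg _) (mem_univ a))
    set ρ : ℝ → ℝ := fun x => (trace ((U x)ᴴ * U x)).re
    have hρc : Continuous ρ := Complex.continuous_re.comp hDc.matrix_trace
    have hρi : Integrable ρ := by
      have : Integrable fun x => trace ((U x)ᴴ * U x) := by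
        simp only [trace, Matrix.diag, Matrix.mul_apply, conjTranspose_apply]
        exact integrable_finsetSum _ fun i _ => integrable_finsetSum _ fun a _ =>
          (hU2 a i).star.integrable_mul (hU2 a i)
      exact this.re
    have hρ0 : ∀ x, 0 ≤ ρ x := fun x =>
      (Complex.le_def.mp (posSemidef_conjTranspose_mul_self (U x)).trace_nonneg).1
    have hρb : ∀ x, ρ x ≤ ∑ _i : Fin N, ∑ _a : Fin m, C * C := fun x => by
      simp only [ρ, trace, Matrix.diag, Matrix.mul_apply, conjTranspose_apply, Complex.re_sum]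
      refine sum_le_sum fun i _ => sum_le_sum fun a _ => (Complex.re_le_norm _).trans ?_
      rw [norm_mul, norm_star]
      exact mul_le_mul (hC x a i) (hC x a i) (norm_nonneg _) ((norm_nonneg _).trans (hC x a i))
    set B := ∑ _i : Fin N, ∑ _a : Fin m, C * C
    refine ((hρi.const_mul (B ^ 2)).const_mul ((N : ℝ) ^ 3)).mono'
      (Complex.continuous_re.comp ((hDc.matrix_mul hDc).matrix_mul hDc).matrix_trace).aestronglyMeasurable
      (Eventually.of_forall fun x => ?_)
    refine (abs_trace_cube_le (posSemidef_conjTranspose_mul_self (U x))).trans ?_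
    refine mul_le_mul_of_nonneg_left ?_ (by positivity)
    show ρ x ^ 3 ≤ _
    calc ρ x ^ 3 = ρ x ^ 2 * ρ x := by ring
      _ ≤ B ^ 2 * ρ x := by
        gcongr
        · exact hρ0 x
        · exact hρ0 x
        · exact hρb x
  have hPi : ∀ j, Integrable (P j) := by
    intro j
    refine ((hW.integrable.const_mul L).add (hT3i.const_mul (Real.pi ^ 2 / 4))).mono' ?_
      (Eventually.of_forall fun x => ?_)
    · have hm' : Measurable fun x => ∑ a, ∑ b, conj (ψ j x a) * W x a b * ψ j x b :=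
        Finset.measurable_sum _ fun a _ => Finset.measurable_sum _ fun b _ =>
          ((Complex.continuous_conj.measurable.comp (hUc a j).measurable).mul
            (hW.measurable a b)).mul (hUc b j).measurable
      exact (Complex.measurable_re.comp hm').aestronglyMeasurable
    · rw [Real.norm_eq_abs, abs_of_nonneg (hP0 j x)]
      exact (single_le_sum (fun k _ => hP0 k x) (mem_univ j)).trans (hle x)
  have hTi : ∀ j, Integrable fun x => ‖deriv (ψ j) x‖ ^ 2 := fun j =>
    (hψ.memLp_deriv j).integrable_norm_pow (by norm_num)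
  have eT : ∫ x, (trace ((U' x)ᴴ * U' x)).re = ∑ j, ∫ x, ‖deriv (ψ j) x‖ ^ 2 := by
    rw [← integral_finsetSum _ fun j _ => hTi j]
    refine integral_congr_ae (Eventually.of_forall fun x => ?_)
    simp [trace, Matrix.mul_apply, hU'def, EuclideanSpace.norm_sq_eq, Complex.conj_mul',
      ← Complex.ofReal_pow]
  calc ∑ j, negForm W (ψ j) = (∑ j, ∫ x, P j x) - ∑ j, ∫ x, ‖deriv (ψ j) x‖ ^ 2 :=
        sum_sub_distrib _ _
    _ = (∫ x, ∑ j, P j x) - ∫ x, (trace ((U' x)ᴴ * U' x)).re := by
        rw [eT, integral_finsetSum _ fun j _ => hPi j]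
    _ ≤ (∫ x, (L * trRpow (W x) (3 / 2) + Real.pi ^ 2 / 4 * T3 x)) -
          Real.pi ^ 2 / 4 * ∫ x, T3 x := by
        refine sub_le_sub (integral_mono (integrable_finsetSum _ fun j _ => hPi j)
          ((hW.integrable.const_mul L).add (hT3i.const_mul _)) hle) key
    _ = L * potentialNorm W := by
        rw [integral_add (hW.integrable.const_mul L) (hT3i.const_mul _), integral_const_mul,
          integral_const_mul]
        unfold potentialNorm
        ring

end Vale.Agent.P371
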