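import Mathlib

/-!
A Pick-type kernel on the strip `0 ≤ Re w ≤ π/2` attached to
`F w = sin (w + x) exp (I t (w - x)) - sin x cos x`, and its positivity.
-/

namespace Vale.Agent.P371

open Real Complex MeasureTheory Filter Topology Finset
open scoped ComplexConjugate

/-- `sin (u + I v)`, real and imaginary part. -/
lemma sin_re_im (u v : ℝ) :
    (Complex.sin (u + v * I)).re = Real.sin u * Real.cosh v ∧
      (Complex.sin (u + v * I)).im = Real.cos u * Real.sinh v := by
  rw [Complex.sin_add, Complex.sin_mul_I, Complex.cos_mul_I, ← Complex.ofReal_sin,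
    ← Complex.ofReal_cos, ← Complex.ofReal_cosh, ← Complex.ofReal_sinh]
  constructor <;> simp [Complex.mul_re, Complex.mul_im, -Complex.ofReal_sin, -Complex.ofReal_cos,
    -Complex.ofReal_cosh, -Complex.ofReal_sinh]

lemma norm_sin_bounds (u v : ℝ) :
    |Real.sinh v| ≤ ‖Complex.sin (u + v * I)‖ ∧ ‖Complex.sin (u + v * I)‖ ≤ Real.exp |v| := by
  obtain ⟨h1, h2⟩ := sin_re_im u v
  have hsq : ‖Complex.sin (u + v * I)‖ ^ 2 = Real.sin u ^ 2 + Real.sinh v ^ 2 := by
    rw [← Complex.normSq_eq_norm_sq, Complex.normSq_apply, h1, h2]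
    linear_combination (Real.sinh v ^ 2) * Real.sin_sq_add_cos_sq u +
      (Real.sin u ^ 2) * Real.cosh_sq v
  constructor
  · refine abs_le_of_sq_le_sq ?_ (norm_nonneg _)
    rw [hsq]
    nlinarith [sq_nonneg (Real.sin u)]
  · have hc : ‖Complex.sin (u + v * I)‖ ≤ Real.cosh v := by
      refine le_of_abs_le (abs_le_of_sq_le_sq ?_ (Real.cosh_pos v).le)
      rw [hsq, Real.cosh_sq]
      nlinarith [Real.sin_sq_le_one u]
    refine hc.trans ?_
    rw [← Real.cosh_abs, Real.cosh_eq]
    have : Real.exp (-|v|) ≤ Real.exp |v| := Real.exp_le_exp.mpr (by linarith [abs_nonneg v])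
    linarith

lemma sin_ne_zero_of_re_mem {z : ℂ} (h : z.re ∈ Set.Ioo 0 π) : Complex.sin z ≠ 0 := by
  rw [← Complex.re_add_im z]
  intro hz
  have := congrArg Complex.re hz
  rw [(sin_re_im _ _).1, Complex.zero_re] at this
  rcases mul_eq_zero.mp this with h' | h'
  · exact (Real.sin_pos_of_pos_of_lt_pi h.1 h.2).ne' h'
  · exact (Real.cosh_pos _).ne' h'

lemma dslope_sin_ne_zero {z : ℂ} (h : |z.re| < π) : dslope Complex.sin 0 z ≠ 0 := by
  rcases eq_or_ne z 0 with rfl | hz
  · rw [dslope_same]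
    simp
  · rw [dslope_of_ne _ hz, slope_def_field, Complex.sin_zero, sub_zero, sub_zero, div_ne_zero_iff]
    refine ⟨fun hs => ?_, hz⟩
    obtain ⟨k, hk⟩ := Complex.sin_eq_zero_iff.mp hs
    have hre : z.re = k * π := by rw [hk]; simp
    have hk0 : k = 0 := by
      by_contra hk0
      have : (1 : ℝ) ≤ |(k : ℝ)| := by
        rw [← Int.cast_abs]
        exact_mod_cast Int.one_le_abs hk0
      rw [hre, abs_mul, abs_of_pos Real.pi_pos] at h
      nlinarith [Real.pi_pos]
    exact hz (by rw [hk, hk0]; simp)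

/-- The function whose boundary real part is nonnegative. -/
noncomputable def stripFun (t x : ℝ) (w : ℂ) : ℂ :=
  Complex.sin (w + x) * Complex.exp (I * t * (w - x)) - Real.sin x * Real.cos x

lemma differentiable_stripFun (t x : ℝ) : Differentiable ℂ (stripFun t x) := by
  unfold stripFun
  fun_prop

lemma norm_stripFun_le {t : ℝ} (ht : 0 ≤ t) (x u v : ℝ) :
    ‖stripFun t x (u + v * I)‖ ≤ 2 * Real.exp ((1 + t) * |v|) := by
  have h1 := (norm_sin_bounds (u + x) v).2
  have h2 : ‖Complex.exp (I * t * (u + v * I - x))‖ = Real.exp (-(t * v)) := by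
    rw [Complex.norm_exp]
    simp
  have h3 : ‖((Real.sin x * Real.cos x : ℝ) : ℂ)‖ ≤ 1 := by
    rw [Complex.norm_real, Real.norm_eq_abs, abs_mul]
    exact mul_le_one₀ (Real.abs_sin_le_one x) (abs_nonneg _) (Real.abs_cos_le_one x)
  unfold stripFun
  refine (norm_sub_le _ _).trans ?_
  rw [norm_mul, h2, ← Complex.ofReal_mul]
  rw [show (u : ℂ) + v * I + x = ((u + x : ℝ) : ℂ) + v * I by push_cast; ring]
  have h5 : Real.exp |v| * Real.exp (-(t * v)) ≤ Real.exp ((1 + t) * |v|) := by
    rw [← Real.exp_add]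
    refine Real.exp_le_exp.mpr ?_
    nlinarith [neg_abs_le v]
  have h6 : 1 ≤ Real.exp ((1 + t) * |v|) := Real.one_le_exp (by positivity)
  have h7 : ‖Complex.sin (((u + x : ℝ) : ℂ) + v * I)‖ * Real.exp (-(t * v)) ≤
      Real.exp |v| * Real.exp (-(t * v)) := mul_le_mul_of_nonneg_right h1 (Real.exp_pos _).le
  linarith

lemma concave_sin_scaled {y c : ℝ} (hy : y ∈ Set.Icc 0 π) (hc : c ∈ Set.Icc (0 : ℝ) 1) :
    c * Real.sin y ≤ Real.sin (c * y) := by
  have := strictConcaveOn_sin_Icc.concaveOn.2 ⟨le_rfl, Real.pi_pos.le⟩ hy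
    (sub_nonneg.mpr hc.2) hc.1 (sub_add_cancel 1 c)
  simpa using this

/-- The real inequality behind positivity on both edges. -/
lemma edge_nonneg {t y v : ℝ} (ht : t ∈ Set.Icc (0 : ℝ) 1) (hy : y ∈ Set.Icc 0 (π / 2)) :
    0 ≤ Real.exp (-(t * v)) * (Real.sin y * Real.cos (t * y) * Real.cosh v +
      Real.cos y * Real.sin (t * y) * Real.sinh v) - Real.sin y * Real.cos y := by
  have key : Real.exp (-(t * v)) * (Real.sin y * Real.cos (t * y) * Real.cosh v +
      Real.cos y * Real.sin (t * y) * Real.sinh v) =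
      (Real.exp ((1 - t) * v) * Real.sin ((1 + t) * y) +
        Real.exp (-((1 + t) * v)) * Real.sin ((1 - t) * y)) / 2 := by
    rw [Real.cosh_eq, Real.sinh_eq, show (1 + t) * y = y + t * y by ring,
      show (1 - t) * y = y - t * y by ring, Real.sin_add, Real.sin_sub,
      show (1 - t) * v = -(t * v) + v by ring, show -((1 + t) * v) = -(t * v) + -v by ring,
      Real.exp_add, Real.exp_add]
    ring
  rw [key]
  have hy2 : 2 * y ∈ Set.Icc 0 π := ⟨by linarith [hy.1], by linarith [hy.2]⟩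
  have h1 := concave_sin_scaled hy2 (c := (1 + t) / 2) ⟨by linarith [ht.1], by linarith [ht.2]⟩
  have h2 := concave_sin_scaled hy2 (c := (1 - t) / 2) ⟨by linarith [ht.2], by linarith [ht.1]⟩
  rw [show (1 + t) / 2 * (2 * y) = (1 + t) * y by ring] at h1
  rw [show (1 - t) / 2 * (2 * y) = (1 - t) * y by ring] at h2
  have hs : 0 ≤ Real.sin (2 * y) := Real.sin_nonneg_of_nonneg_of_le_pi hy2.1 hy2.2
  have e1 := Real.add_one_le_exp ((1 - t) * v)
  have e2 := Real.add_one_le_exp (-((1 + t) * v))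
  have a1 : Real.exp ((1 - t) * v) * ((1 + t) / 2 * Real.sin (2 * y)) ≤
      Real.exp ((1 - t) * v) * Real.sin ((1 + t) * y) :=
    mul_le_mul_of_nonneg_left h1 (Real.exp_pos _).le
  have a2 : Real.exp (-((1 + t) * v)) * ((1 - t) / 2 * Real.sin (2 * y)) ≤
      Real.exp (-((1 + t) * v)) * Real.sin ((1 - t) * y) :=
    mul_le_mul_of_nonneg_left h2 (Real.exp_pos _).le
  have b1 := mul_le_mul_of_nonneg_right e1
    (show 0 ≤ (1 + t) / 2 * Real.sin (2 * y) from mul_nonneg (by linarith [ht.1]) hs)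
  have b2 := mul_le_mul_of_nonneg_right e2
    (show 0 ≤ (1 - t) / 2 * Real.sin (2 * y) from mul_nonneg (by linarith [ht.2]) hs)
  have hd := Real.sin_two_mul y
  linarith

lemma stripFun_left_re (t x v : ℝ) :
    (stripFun t x ((0 : ℝ) + v * I)).re = Real.exp (-(t * v)) *
      (Real.sin x * Real.cos (t * x) * Real.cosh v +
        Real.cos x * Real.sin (t * x) * Real.sinh v) - Real.sin x * Real.cos x := by
  have e : ((0 : ℝ) : ℂ) + v * I + x = (x : ℂ) + v * I := by simp [add_comm]
  have e2 : I * t * (((0 : ℝ) : ℂ) + v * I - x) =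
      ((-(t * v) : ℝ) : ℂ) + ((-(t * x) : ℝ) : ℂ) * I := by
    push_cast
    linear_combination (t * v : ℂ) * I_sq
  unfold stripFun
  rw [e, e2, ← Complex.ofReal_mul, Complex.sub_re, Complex.mul_re, (sin_re_im x v).1,
    (sin_re_im x v).2, Complex.exp_re, Complex.exp_im, Complex.ofReal_re]
  simp [Real.sin_neg, Real.cos_neg]
  ring

lemma stripFun_right_re (t x v : ℝ) :
    (stripFun t x ((π / 2 : ℝ) + v * I)).re = Real.exp (-(t * v)) *
      (Real.sin (π / 2 - x) * Real.cos (t * (π / 2 - x)) * Real.cosh v +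
        Real.cos (π / 2 - x) * Real.sin (t * (π / 2 - x)) * Real.sinh v) -
      Real.sin (π / 2 - x) * Real.cos (π / 2 - x) := by
  have e : ((π / 2 : ℝ) : ℂ) + v * I + x = ((π / 2 + x : ℝ) : ℂ) + v * I := by push_cast; ring
  have e2 : I * t * (((π / 2 : ℝ) : ℂ) + v * I - x) =
      ((-(t * v) : ℝ) : ℂ) + ((t * (π / 2 - x) : ℝ) : ℂ) * I := by
    push_cast
    linear_combination (t * v : ℂ) * I_sq
  unfold stripFun
  rw [e, e2, ← Complex.ofReal_mul, Complex.sub_re, Complex.mul_re, (sin_re_im _ v).1,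
    (sin_re_im _ v).2, Complex.exp_re, Complex.exp_im, Complex.ofReal_re]
  rw [add_comm (π / 2) x, Real.sin_add_pi_div_two, Real.cos_add_pi_div_two,
    Real.sin_pi_div_two_sub, Real.cos_pi_div_two_sub]
  simp
  ring

lemma stripFun_edges_nonneg {t x : ℝ} (ht : t ∈ Set.Icc (0 : ℝ) 1)
    (hx : x ∈ Set.Icc 0 (π / 2)) (v : ℝ) :
    0 ≤ (stripFun t x ((0 : ℝ) + v * I)).re ∧
      0 ≤ (stripFun t x ((π / 2 : ℝ) + v * I)).re := by
  rw [stripFun_left_re, stripFun_right_re]
  exact ⟨edge_nonneg ht hx, edge_nonneg ht ⟨by linarith [hx.2], by linarith [hx.1]⟩⟩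

/-- `1 / (sin (p - w) sin (q + w))`. -/
noncomputable def stripKer (p q : ℝ) (w : ℂ) : ℂ :=
  (Complex.sin ((p : ℂ) - w) * Complex.sin ((q : ℂ) + w))⁻¹

lemma norm_stripKer_le (p q u : ℝ) {v : ℝ} (hv : 1 ≤ |v|) :
    ‖stripKer p q (u + v * I)‖ ≤ 9 * Real.exp (-(2 * |v|)) := by
  have hs : Real.exp |v| / 3 ≤ |Real.sinh v| := by
    rw [Real.abs_sinh, Real.sinh_eq]
    have h1 : Real.exp |v| * Real.exp (-|v|) = 1 := by rw [← Real.exp_add, add_neg_cancel,
      Real.exp_zero]
    have h2 : 2 ≤ Real.exp |v| := by linarith [Real.add_one_le_exp |v|]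
    have h3 : Real.exp (-|v|) ≤ Real.exp |v| / 3 := by nlinarith [Real.exp_pos (-|v|)]
    linarith
  have a1 := (norm_sin_bounds (p - u) (-v)).1
  have a2 := (norm_sin_bounds (q + u) v).1
  rw [Real.sinh_neg, abs_neg] at a1
  unfold stripKer
  rw [norm_inv, norm_mul,
    show (p : ℂ) - (u + v * I) = ((p - u : ℝ) : ℂ) + (-v : ℝ) * I by push_cast; ring,
    show (q : ℂ) + (u + v * I) = ((q + u : ℝ) : ℂ) + v * I by push_cast; ring]
  have hpos : 0 < Real.exp |v| / 3 := by positivity
  calc _ ≤ (Real.exp |v| / 3 * (Real.exp |v| / 3))⁻¹ := by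
        gcongr
        · exact hs.trans a1
        · exact hs.trans a2
    _ = 9 * Real.exp (-(2 * |v|)) := by
        rw [Real.exp_neg, two_mul, Real.exp_add]
        field_simp
        ring

lemma integrable_exp_neg_mul_abs {c : ℝ} (hc : 0 < c) :
    Integrable fun v : ℝ => Real.exp (-(c * |v|)) := by
  rw [← integrableOn_univ, ← Set.Iic_union_Ioi (a := (0 : ℝ)), integrableOn_union]
  constructor
  · exact (integrableOn_exp_mul_Iic hc 0).congr_fun
      (fun v (hv : v ∈ Set.Iic 0) => by simp [abs_of_nonpos (Set.mem_Iic.mp hv)]) measurableSet_Iic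
  · exact (integrableOn_exp_mul_Ioi (neg_neg_of_pos hc) 0).congr_fun
      (fun v (hv : v ∈ Set.Ioi 0) => by simp [abs_of_pos (Set.mem_Ioi.mp hv)]) measurableSet_Ioi

lemma integrable_edge {u p q k : ℝ} (hk : k < 2) (hp : p - u ∈ Set.Ioo (-π) π) (hp0 : p ≠ u)
    (hq : q + u ∈ Set.Ioo 0 π) {G : ℂ → ℂ} (hG : Continuous G) {C : ℝ}
    (hb : ∀ v : ℝ, ‖G (u + v * I)‖ ≤ C * Real.exp (k * |v|)) :
    Integrable fun v : ℝ => G (u + v * I) * stripKer p q (u + v * I) := by
  have hne : ∀ v : ℝ, Complex.sin ((p : ℂ) - (u + v * I)) * Complex.sin ((q : ℂ) + (u + v * I)) ≠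
      0 := by
    intro v
    refine mul_ne_zero ?_ (sin_ne_zero_of_re_mem (by simpa using hq))
    rcases lt_or_gt_of_ne (sub_ne_zero.mpr hp0) with h | h
    · rw [← neg_ne_zero, ← Complex.sin_neg]
      exact sin_ne_zero_of_re_mem ⟨by simp; linarith, by simp; linarith [hp.1]⟩
    · exact sin_ne_zero_of_re_mem ⟨by simp; linarith, by simp; linarith [hp.2]⟩
  have hc : Continuous fun v : ℝ => G (u + v * I) * stripKer p q (u + v * I) := by
    refine (hG.comp (by fun_prop)).mul ?_
    unfold stripKer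
    exact Continuous.inv₀ (by fun_prop) hne
  obtain ⟨B, hB⟩ := (isCompact_Icc (a := (-1 : ℝ)) (b := 1)).exists_bound_of_continuousOn
    hc.continuousOn
  have hC : 0 ≤ C := by
    have := (norm_nonneg _).trans (hb 0)
    simpa using this
  set c := 2 - k with hcdef
  refine ((integrable_exp_neg_mul_abs (sub_pos.mpr hk : 0 < c)).const_mul
    (|B| * Real.exp c + 9 * C)).mono' hc.aestronglyMeasurable (Eventually.of_forall fun v => ?_)
  have hE := Real.exp_pos (-(c * |v|))
  have hA : 0 ≤ |B| * Real.exp c := by positivity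
  rcases le_or_gt (1 : ℝ) |v| with h | h
  · rw [norm_mul]
    refine (mul_le_mul (hb v) (norm_stripKer_le p q u h) (norm_nonneg _) (by positivity)).trans ?_
    rw [show C * Real.exp (k * |v|) * (9 * Real.exp (-(2 * |v|))) =
      9 * C * (Real.exp (k * |v|) * Real.exp (-(2 * |v|))) by ring, ← Real.exp_add,
      show k * |v| + -(2 * |v|) = -(c * |v|) by rw [hcdef]; ring]
    nlinarith
  · have h1 := hB v (abs_le.mp h.le)
    have h2 : |B| ≤ |B| * Real.exp c * Real.exp (-(c * |v|)) := by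
      rw [mul_assoc, ← Real.exp_add]
      refine le_mul_of_one_le_right (abs_nonneg B) (Real.one_le_exp ?_)
      have : 0 < c := sub_pos.mpr hk
      nlinarith
    have : 0 ≤ 9 * C * Real.exp (-(c * |v|)) := by positivity
    calc _ ≤ B := h1
      _ ≤ |B| := le_abs_self B
      _ ≤ _ := by linarith

/-- Cauchy's theorem on the strip with the removable pole at `p`. -/
lemma strip_cauchy {k : ℝ} (hk0 : 0 ≤ k) (hk : k < 2) {F : ℂ → ℂ} (hF : Differentiable ℂ F) {C : ℝ}
    (hb : ∀ u v : ℝ, ‖F (u + v * I)‖ ≤ C * Real.exp (k * |v|))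
    {p q : ℝ} (hp : p ∈ Set.Ioo 0 (π / 2)) (hq : q ∈ Set.Ioo 0 (π / 2)) :
    (∫ v : ℝ, F ((0 : ℝ) + v * I) * stripKer p q ((0 : ℝ) + v * I)) -
        ∫ v : ℝ, F ((π / 2 : ℝ) + v * I) * stripKer p q ((π / 2 : ℝ) + v * I) =
      F p * ((∫ v : ℝ, stripKer p q ((0 : ℝ) + v * I)) -
        ∫ v : ℝ, stripKer p q ((π / 2 : ℝ) + v * I)) := by
  set g : ℂ → ℂ := fun w => -(dslope F p w) /
    (dslope Complex.sin 0 ((p : ℂ) - w) * Complex.sin ((q : ℂ) + w))
  have hg : ∀ w : ℂ, w ≠ p → g w = (F w - F p) * stripKer p q w := by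
    intro w hw
    have h1 : (p : ℂ) - w ≠ 0 := sub_ne_zero.mpr hw.symm
    have h2 : w - p ≠ 0 := sub_ne_zero.mpr hw
    simp only [g, dslope_of_ne _ hw, dslope_of_ne _ h1, slope_def_field, Complex.sin_zero,
      sub_zero, stripKer]
    have e : -((F w - F p) / (w - p)) = (F w - F p) / ((p : ℂ) - w) := by
      rw [← neg_sub w (p : ℂ), div_neg]
    rw [e]
    field_simp
  have hdiff : ∀ R : ℝ, DifferentiableOn ℂ g (Set.uIcc (0 : ℝ) (π / 2) ×ℂ Set.uIcc (-R) R) := by
    intro R w hw
    have hre := (Complex.mem_reProdIm.mp hw).1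
    rw [Set.uIcc_of_le (by positivity)] at hre
    have hpi := Real.pi_pos
    have hd1 : Differentiable ℂ (dslope F p) := fun z =>
      ((differentiableOn_dslope (s := Set.univ) univ_mem).mpr hF.differentiableOn).differentiableAt
        univ_mem
    have hd2 : Differentiable ℂ (dslope Complex.sin 0) := fun z =>
      ((differentiableOn_dslope (s := Set.univ) univ_mem).mpr
        Complex.differentiable_sin.differentiableOn).differentiableAt univ_mem
    refine (DifferentiableAt.div ((hd1 w).neg) ?_ ?_).differentiableWithinAt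
    · exact ((hd2 _).comp w (by fun_prop)).mul (by fun_prop)
    · refine mul_ne_zero (dslope_sin_ne_zero ?_) (sin_ne_zero_of_re_mem ?_)
      · rw [Complex.sub_re, Complex.ofReal_re, abs_lt]
        constructor <;> linarith [hp.1, hp.2, hre.1, hre.2]
      · rw [Complex.add_re, Complex.ofReal_re]
        constructor <;> linarith [hq.1, hq.2, hre.1, hre.2]
  have hrect : ∀ R : ℝ, (∫ u in (0 : ℝ)..(π / 2), g (u + (-R : ℝ) * I)) -
      (∫ u in (0 : ℝ)..(π / 2), g (u + R * I)) +
      I • (∫ v in (-R)..R, g ((π / 2 : ℝ) + v * I)) -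
      I • (∫ v in (-R)..R, g ((0 : ℝ) + v * I)) = 0 := by
    intro R
    have := integral_boundary_rect_eq_zero_of_differentiableOn g
      (((0 : ℝ) : ℂ) + (-R : ℝ) * I) (((π / 2 : ℝ) : ℂ) + R * I) (by simpa using hdiff R)
    simpa using this
  have htop : ∀ (σ : ℝ → ℝ), Tendsto (fun R => |σ R|) atTop atTop →
      Tendsto (fun R => ∫ u in (0 : ℝ)..(π / 2), g (u + σ R * I)) atTop (𝓝 0) := by
    intro σ hσ
    have hlim : Tendsto (fun R => 9 * (|C| + ‖F p‖) * Real.exp (-((2 - k) * |σ R|)) *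
        |π / 2 - 0|) atTop (𝓝 0) := by
      have := ((Real.tendsto_exp_neg_atTop_nhds_zero.comp
        (hσ.const_mul_atTop (sub_pos.mpr hk))).const_mul (9 * (|C| + ‖F p‖))).mul_const |π / 2 - 0|
      simpa [Function.comp_def] using this
    refine squeeze_zero_norm' ?_ hlim
    filter_upwards [hσ.eventually (eventually_ge_atTop 1)] with R hR
    refine intervalIntegral.norm_integral_le_of_norm_le_const fun u _ => ?_
    have hne : (u : ℂ) + σ R * I ≠ p := by
      intro h
      have := congrArg Complex.im h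
      simp at this
      rw [this, abs_zero] at hR
      linarith
    rw [hg _ hne, norm_mul]
    refine (mul_le_mul (norm_sub_le _ _) (norm_stripKer_le p q u hR) (norm_nonneg _)
      (by positivity)).trans ?_
    have h1 : ‖F (u + σ R * I)‖ + ‖F p‖ ≤ (|C| + ‖F p‖) * Real.exp (k * |σ R|) := by
      have h2 := hb u (σ R)
      have h3 : 1 ≤ Real.exp (k * |σ R|) := Real.one_le_exp (by positivity)
      have h4 : C * Real.exp (k * |σ R|) ≤ |C| * Real.exp (k * |σ R|) := by
        gcongr; exact le_abs_self C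
      nlinarith [norm_nonneg (F p)]
    refine (mul_le_mul_of_nonneg_right h1 (by positivity)).trans (le_of_eq ?_)
    rw [show -((2 - k) * |σ R|) = k * |σ R| + -(2 * |σ R|) by ring, Real.exp_add]
    ring
  have hedge : ∀ u : ℝ, (u = 0 ∨ u = π / 2) →
      Integrable (fun v : ℝ => g (u + v * I)) ∧
      ∫ v : ℝ, g (u + v * I) = (∫ v : ℝ, F (u + v * I) * stripKer p q (u + v * I)) -
        F p * ∫ v : ℝ, stripKer p q (u + v * I) := by
    intro u hu
    have hpi := Real.pi_pos
    have c1 : p - u ∈ Set.Ioo (-π) π ∧ p ≠ u ∧ q + u ∈ Set.Ioo 0 π := by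
      rcases hu with rfl | rfl <;>
        refine ⟨⟨?_, ?_⟩, ?_, ?_, ?_⟩ <;> linarith [hp.1, hp.2, hq.1, hq.2]
    have i1 := integrable_edge hk c1.1 c1.2.1 c1.2.2 hF.continuous (hb u)
    have i2 := integrable_edge (G := fun _ => 1) (C := 1) (k := 0) (by norm_num) c1.1 c1.2.1 c1.2.2
      continuous_const (fun v => by simp)
    simp only [one_mul] at i2
    have e : (fun v : ℝ => g (u + v * I)) = fun v : ℝ =>
        F (u + v * I) * stripKer p q (u + v * I) - F p * stripKer p q (u + v * I) := by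
      funext v
      rw [hg _ fun h => c1.2.1 (by simpa using (congrArg Complex.re h).symm), sub_mul]
    rw [e]
    exact ⟨i1.sub (i2.const_mul _), by rw [integral_sub i1 (i2.const_mul _), integral_const_mul]⟩
  obtain ⟨il, el⟩ := hedge 0 (Or.inl rfl)
  obtain ⟨ir, er⟩ := hedge (π / 2) (Or.inr rfl)
  have hl := intervalIntegral_tendsto_integral il tendsto_neg_atTop_atBot tendsto_id
  have hr := intervalIntegral_tendsto_integral ir tendsto_neg_atTop_atBot tendsto_id
  have hbot := htop (fun R => -R) (by simpa using tendsto_abs_atTop_atTop)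
  have htop' := htop (fun R => R) tendsto_abs_atTop_atTop
  have := ((hbot.sub htop').add (hr.const_smul I)).sub (hl.const_smul I)
  have h0 := tendsto_nhds_unique this (tendsto_const_nhds.congr fun R => (hrect R).symm)
  simp only [sub_zero, zero_add, ← smul_sub, smul_eq_zero, I_ne_zero, false_or, sub_eq_zero] at h0
  rw [el, er] at h0
  linear_combination -h0

lemma stripKer_eq_cot {p q : ℝ} {w : ℂ} (h1 : Complex.sin ((p : ℂ) - w) ≠ 0)
    (h2 : Complex.sin ((q : ℂ) + w) ≠ 0) :
    (Real.sin (p + q) : ℂ) * stripKer p q w =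
      Complex.cot ((p : ℂ) - w) + Complex.cot ((q : ℂ) + w) := by
  rw [Complex.ofReal_sin, Complex.ofReal_add,
    show (p : ℂ) + q = (p - w) + (q + w) by ring, Complex.sin_add, stripKer,
    Complex.cot_eq_cos_div_sin, Complex.cot_eq_cos_div_sin]
  field_simp
  ring

/-- The real part of `cot (u + I v)`. -/
noncomputable def cotRe (u v : ℝ) : ℝ :=
  Real.sin u * Real.cos u / (Real.sin u ^ 2 * Real.cosh v ^ 2 + Real.cos u ^ 2 * Real.sinh v ^ 2)

lemma cot_re (u v : ℝ) : (Complex.cot (u + v * I)).re = cotRe u v := by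
  rw [Complex.cot_eq_cos_div_sin, Complex.div_re, Complex.normSq_apply, (sin_re_im u v).1,
    (sin_re_im u v).2, Complex.cos_add, Complex.sin_mul_I, Complex.cos_mul_I]
  simp only [← Complex.ofReal_sin, ← Complex.ofReal_cos, ← Complex.ofReal_cosh,
    ← Complex.ofReal_sinh, Complex.sub_re, Complex.sub_im, Complex.mul_re, Complex.mul_im,
    Complex.ofReal_re, Complex.ofReal_im, Complex.I_re, Complex.I_im]
  rw [← add_div, cotRe]
  congr 1
  · linear_combination (Real.sin u * Real.cos u) * Real.cosh_sq v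
  · ring

lemma cotRe_neg_right (u v : ℝ) : cotRe u (-v) = cotRe u v := by simp [cotRe]

lemma cotRe_pos_integral {s : ℝ} (hs : s ∈ Set.Ioo 0 (π / 2)) :
    Integrable (fun v => cotRe s v) ∧ ∫ v, cotRe s v = π - 2 * s := by
  have hpi := Real.pi_pos
  have ha := Real.sin_pos_of_pos_of_lt_pi hs.1 (by linarith [hs.2])
  have hb := Real.cos_pos_of_mem_Ioo (x := s) ⟨by linarith [hs.1], hs.2⟩
  have hd : ∀ v, HasDerivAt
      (fun y => Real.arctan (Real.sinh y / Real.cosh y * (Real.cos s / Real.sin s))) (cotRe s v)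
      v := by
    intro v
    refine ((((Real.hasDerivAt_sinh v).div (Real.hasDerivAt_cosh v) (Real.cosh_pos v).ne').mul_const
      (Real.cos s / Real.sin s)).arctan).congr_deriv ?_
    have hc := (Real.cosh_pos v).ne'
    have := Real.cosh_sq v
    simp only [cotRe, Pi.div_apply]
    field_simp
    linear_combination this
  have hth : Tendsto (fun v => Real.sinh v / Real.cosh v) atTop (𝓝 1) := by
    have e : ∀ v, Real.sinh v / Real.cosh v =
        1 - 2 * Real.exp (-(2 * v)) / (1 + Real.exp (-(2 * v))) := by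
      intro v
      rw [Real.sinh_eq, Real.cosh_eq, show -(2 * v) = -v + -v by ring, Real.exp_add, Real.exp_neg]
      have := Real.exp_pos v
      field_simp
      ring
    simp only [e]
    have h := Real.tendsto_exp_neg_atTop_nhds_zero.comp
      (tendsto_id.const_mul_atTop (two_pos : (0 : ℝ) < 2))
    simpa using (h.const_mul 2 |>.div (h.const_add 1) (by norm_num)).const_sub 1
  have hth' : Tendsto (fun v => Real.sinh v / Real.cosh v) atBot (𝓝 (-1)) := by
    have := (hth.comp tendsto_neg_atBot_atTop).neg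
    simpa [Function.comp_def, neg_div] using this
  have hat : Real.arctan (Real.cos s / Real.sin s) = π / 2 - s := by
    rw [show Real.cos s / Real.sin s = Real.tan (π / 2 - s) by
      rw [Real.tan_eq_sin_div_cos, Real.sin_pi_div_two_sub, Real.cos_pi_div_two_sub]]
    exact Real.arctan_tan (by linarith [hs.2]) (by linarith [hs.1])
  have t1 : Tendsto (fun y => Real.arctan (Real.sinh y / Real.cosh y * (Real.cos s / Real.sin s)))
      atTop (𝓝 (π / 2 - s)) := by
    have := (Real.continuous_arctan.tendsto _).comp (hth.mul_const (Real.cos s / Real.sin s))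
    rwa [one_mul, hat] at this
  have t2 : Tendsto (fun y => Real.arctan (Real.sinh y / Real.cosh y * (Real.cos s / Real.sin s)))
      atBot (𝓝 (-(π / 2 - s))) := by
    have := (Real.continuous_arctan.tendsto _).comp (hth'.mul_const (Real.cos s / Real.sin s))
    rwa [neg_one_mul, Real.arctan_neg, hat] at this
  have hnn : ∀ v, 0 ≤ cotRe s v := fun v => by unfold cotRe; positivity
  have hi : Integrable fun v => cotRe s v := by
    rw [← integrableOn_univ, ← Set.Iic_union_Ioi (a := (0 : ℝ)), integrableOn_union]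
    have h1 : IntegrableOn (fun v => cotRe s v) (Set.Ioi 0) :=
      integrableOn_Ioi_deriv_of_nonneg' (fun v _ => hd v) (fun v _ => hnn v) t1
    refine ⟨?_, h1⟩
    rw [integrableOn_Iic_iff_integrableOn_Iio]
    have h2 := ((Measure.measurePreserving_neg (volume : Measure ℝ)).integrableOn_comp_preimage
      (Homeomorph.neg ℝ).measurableEmbedding).mpr h1
    simpa [Function.comp_def, cotRe_neg_right] using h2
  refine ⟨hi, ?_⟩
  rw [integral_of_hasDerivAt_of_tendsto hd hi t2 t1]
  ring

/-- The normalising integral. -/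
lemma stripKer_integral {p q : ℝ} (hp : p ∈ Set.Ioo 0 (π / 2)) (hq : q ∈ Set.Ioo 0 (π / 2)) :
    ((∫ v : ℝ, stripKer p q ((0 : ℝ) + v * I)) -
        ∫ v : ℝ, stripKer p q ((π / 2 : ℝ) + v * I)) * Real.sin (p + q) = 2 * π := by
  have hpi := Real.pi_pos
  have hint : ∀ u : ℝ, (u = 0 ∨ u = π / 2) →
      Integrable (fun v : ℝ => stripKer p q (u + v * I)) ∧
      (∫ v : ℝ, stripKer p q (u + v * I)).im = 0 ∧
      Real.sin (p + q) * (∫ v : ℝ, stripKer p q (u + v * I)).re =
        ∫ v : ℝ, (cotRe (p - u) v + cotRe (q + u) v) := by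
    intro u hu
    have c1 : p - u ∈ Set.Ioo (-π) π ∧ p ≠ u ∧ q + u ∈ Set.Ioo 0 π := by
      rcases hu with rfl | rfl <;>
        refine ⟨⟨?_, ?_⟩, ?_, ?_, ?_⟩ <;> linarith [hp.1, hp.2, hq.1, hq.2]
    have i2 := integrable_edge (G := fun _ => 1) (C := 1) (k := 0) (by norm_num) c1.1 c1.2.1 c1.2.2
      continuous_const (fun v => by simp)
    simp only [one_mul] at i2
    refine ⟨i2, ?_, ?_⟩
    · have hc : ∀ v : ℝ, conj (stripKer p q (u + v * I)) = stripKer p q (u + (-v : ℝ) * I) := by
        intro v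
        simp only [stripKer, map_inv₀, map_mul, ← Complex.sin_conj, map_sub, map_add,
          Complex.conj_ofReal, Complex.conj_I]
        push_cast
        ring_nf
      have : conj (∫ v : ℝ, stripKer p q (u + v * I)) = ∫ v : ℝ, stripKer p q (u + v * I) := by
        rw [← integral_conj]
        simp only [hc]
        exact integral_neg_eq_self (fun v : ℝ => stripKer p q (u + v * I)) volume
      exact Complex.conj_eq_iff_im.mp this
    · rw [show (∫ v : ℝ, stripKer p q (u + v * I)).re = ∫ v : ℝ, (stripKer p q (u + v * I)).re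
        from (integral_re i2).symm, ← integral_const_mul]
      refine integral_congr_ae (Eventually.of_forall fun v => ?_)
      show Real.sin (p + q) * (stripKer p q (u + v * I)).re = _
      have n2 : Complex.sin ((q : ℂ) + (u + v * I)) ≠ 0 :=
        sin_ne_zero_of_re_mem (by simpa using c1.2.2)
      have n1 : Complex.sin ((p : ℂ) - (u + v * I)) ≠ 0 := by
        rcases lt_or_gt_of_ne (sub_ne_zero.mpr c1.2.1) with h | h
        · rw [← neg_ne_zero, ← Complex.sin_neg]
          exact sin_ne_zero_of_re_mem ⟨by simp; linarith, by simp; linarith [c1.1.1]⟩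
        · exact sin_ne_zero_of_re_mem ⟨by simp; linarith, by simp; linarith [c1.1.2]⟩
      rw [← Complex.re_ofReal_mul, stripKer_eq_cot n1 n2, Complex.add_re,
        show (p : ℂ) - (u + v * I) = ((p - u : ℝ) : ℂ) + (-v : ℝ) * I by push_cast; ring,
        show (q : ℂ) + (u + v * I) = ((q + u : ℝ) : ℂ) + v * I by push_cast; ring, cot_re, cot_re,
        cotRe_neg_right]
  obtain ⟨-, li, lr⟩ := hint 0 (Or.inl rfl)
  obtain ⟨-, ri, rr⟩ := hint (π / 2) (Or.inr rfl)
  obtain ⟨ip, ep⟩ := cotRe_pos_integral hp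
  obtain ⟨iq, eq⟩ := cotRe_pos_integral hq
  obtain ⟨ip', ep'⟩ := cotRe_pos_integral (s := π / 2 - p)
    ⟨by linarith [hp.2], by linarith [hp.1]⟩
  obtain ⟨iq', eq'⟩ := cotRe_pos_integral (s := π / 2 - q)
    ⟨by linarith [hq.2], by linarith [hq.1]⟩
  have e1 : ∀ v, cotRe (p - π / 2) v = -cotRe (π / 2 - p) v := fun v => by
    rw [show p - π / 2 = -(π / 2 - p) by ring]
    simp only [cotRe, Real.sin_neg, Real.cos_neg]
    ring
  have e2 : ∀ v, cotRe (q + π / 2) v = -cotRe (π / 2 - q) v := fun v => by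
    rw [show q + π / 2 = π - (π / 2 - q) by ring]
    simp only [cotRe, Real.sin_pi_sub, Real.cos_pi_sub]
    ring
  rw [sub_zero, add_zero, integral_add ip iq, ep, eq] at lr
  simp only [e1, e2] at rr
  rw [integral_add (f := fun v => -cotRe (π / 2 - p) v) (g := fun v => -cotRe (π / 2 - q) v)
    ip'.neg iq'.neg, integral_neg, integral_neg, ep', eq'] at rr
  apply Complex.ext
  · rw [Complex.mul_re, Complex.sub_re, Complex.sub_im, li, ri, Complex.ofReal_re,
      Complex.ofReal_im]
    simp only [Complex.mul_re, Complex.re_ofNat, Complex.im_ofNat, Complex.ofReal_re,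
      Complex.ofReal_im, sub_zero, zero_mul]
    linarith
  · rw [Complex.mul_im, Complex.sub_re, Complex.sub_im, li, ri, Complex.ofReal_im]
    simp

/-- The Pick kernel attached to `stripFun`. -/
noncomputable def pickKernel (t x p q : ℝ) : ℂ :=
  (stripFun t x p + conj (stripFun t x q)) / Real.sin (p + q)

theorem pickKernel_nonneg {n : ℕ} {t x : ℝ} (ht : t ∈ Set.Ico (0 : ℝ) 1)
    (hx : x ∈ Set.Icc 0 (π / 2)) (p : Fin n → ℝ) (hp : ∀ i, p i ∈ Set.Ioo 0 (π / 2))
    (c : Fin n → ℂ) :
    0 ≤ (∑ i, ∑ j, c i * conj (c j) * pickKernel t x (p i) (p j)).re := by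
  set F := stripFun t x
  have hpi := Real.pi_pos
  have hFd : Differentiable ℂ F := differentiable_stripFun t x
  have hk : 1 + t < 2 := by linarith [ht.2]
  have hk0 : 0 ≤ 1 + t := by linarith [ht.1]
  have hb : ∀ u v : ℝ, ‖F (u + v * I)‖ ≤ 2 * Real.exp ((1 + t) * |v|) := norm_stripFun_le ht.1 x
  -- boundary representation
  have hrep : ∀ i j, (2 * π : ℂ) * pickKernel t x (p i) (p j) =
      (∫ v : ℝ, ((2 * (F ((0 : ℝ) + v * I)).re : ℝ) : ℂ) *
          stripKer (p i) (p j) ((0 : ℝ) + v * I)) -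
        ∫ v : ℝ, ((2 * (F ((π / 2 : ℝ) + v * I)).re : ℝ) : ℂ) *
          stripKer (p i) (p j) ((π / 2 : ℝ) + v * I) := by
    intro i j
    have A := strip_cauchy hk0 hk hFd hb (hp i) (hp j)
    have B := congrArg conj (strip_cauchy hk0 hk hFd hb (hp j) (hp i))
    rw [map_sub, map_mul, map_sub] at B
    simp only [← integral_conj, map_mul] at B
    have hK : ∀ u : ℝ, (u = 0 ∨ u = π / 2) → ∀ v : ℝ,
        conj (stripKer (p j) (p i) (u + v * I)) = stripKer (p i) (p j) (u + v * I) := by
      intro u hu v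
      simp only [stripKer, map_inv₀, map_mul, ← Complex.sin_conj, map_sub, map_add,
        Complex.conj_ofReal, Complex.conj_I]
      congr 1
      rcases hu with rfl | rfl
      · push_cast; ring_nf
      · push_cast
        rw [show (p j : ℂ) - ((π : ℂ) / 2 + v * -I) =
            ((p j : ℂ) + ((π : ℂ) / 2 + v * I)) - π by ring,
          show (p i : ℂ) + ((π : ℂ) / 2 + v * -I) =
            ((p i : ℂ) - ((π : ℂ) / 2 + v * I)) + π by ring,
          Complex.sin_sub_pi, Complex.sin_add_pi]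
        ring
    simp only [hK 0 (Or.inl rfl), hK (π / 2) (Or.inr rfl)] at B
    have hZ := stripKer_integral (hp i) (hp j)
    set Z := (∫ v : ℝ, stripKer (p i) (p j) ((0 : ℝ) + v * I)) -
      ∫ v : ℝ, stripKer (p i) (p j) ((π / 2 : ℝ) + v * I)
    have hint : ∀ u : ℝ, (u = 0 ∨ u = π / 2) →
        (∫ v : ℝ, ((2 * (F (u + v * I)).re : ℝ) : ℂ) * stripKer (p i) (p j) (u + v * I)) =
          (∫ v : ℝ, F (u + v * I) * stripKer (p i) (p j) (u + v * I)) +
            ∫ v : ℝ, conj (F (u + v * I)) * stripKer (p i) (p j) (u + v * I) := by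
      intro u hu
      have c1 : p i - u ∈ Set.Ioo (-π) π ∧ p i ≠ u ∧ p j + u ∈ Set.Ioo 0 π := by
        rcases hu with rfl | rfl <;>
          refine ⟨⟨?_, ?_⟩, ?_, ?_, ?_⟩ <;>
            linarith [(hp i).1, (hp i).2, (hp j).1, (hp j).2]
      rw [← integral_add (integrable_edge hk c1.1 c1.2.1 c1.2.2 hFd.continuous (hb u))
        (integrable_edge (G := fun w => conj (F w)) hk c1.1 c1.2.1 c1.2.2
          (Complex.continuous_conj.comp hFd.continuous)
          (fun v => by rw [Complex.norm_conj]; exact hb u v))]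
      refine integral_congr_ae (Eventually.of_forall fun v => ?_)
      show _ = F (u + v * I) * _ + conj (F (u + v * I)) * _
      rw [← add_mul, Complex.add_conj]
    rw [hint 0 (Or.inl rfl), hint (π / 2) (Or.inr rfl), pickKernel]
    have hs : (Real.sin (p i + p j) : ℂ) ≠ 0 := by
      exact_mod_cast (Real.sin_pos_of_pos_of_lt_pi (by linarith [(hp i).1, (hp j).1])
        (by linarith [(hp i).2, (hp j).2])).ne'
    rw [show (∫ v : ℝ, F ((0 : ℝ) + v * I) * stripKer (p i) (p j) ((0 : ℝ) + v * I)) +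
        (∫ v : ℝ, conj (F ((0 : ℝ) + v * I)) * stripKer (p i) (p j) ((0 : ℝ) + v * I)) -
        ((∫ v : ℝ, F ((π / 2 : ℝ) + v * I) * stripKer (p i) (p j) ((π / 2 : ℝ) + v * I)) +
        ∫ v : ℝ, conj (F ((π / 2 : ℝ) + v * I)) * stripKer (p i) (p j) ((π / 2 : ℝ) + v * I)) =
      (F (p i) + conj (F (p j))) * Z by linear_combination A + B]
    rw [← hZ]
    field_simp
    ring
  set a : ℝ → ℂ := fun v => ∑ i, c i * (Complex.sin ((p i : ℂ) - v * I))⁻¹ with ha
  set b : ℝ → ℂ := fun v => ∑ i, c i * (Complex.cos ((p i : ℂ) - v * I))⁻¹ with hb'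
  have hsum : (2 * π : ℂ) * ∑ i, ∑ j, c i * conj (c j) * pickKernel t x (p i) (p j) =
      (∫ v : ℝ, ((2 * (F ((0 : ℝ) + v * I)).re * Complex.normSq (a v) : ℝ) : ℂ)) +
        ∫ v : ℝ, ((2 * (F ((π / 2 : ℝ) + v * I)).re * Complex.normSq (b v) : ℝ) : ℂ) := by
    have hI : ∀ u : ℝ, (u = 0 ∨ u = π / 2) → ∀ i j, Integrable fun v : ℝ =>
        c i * conj (c j) * (((2 * (F (u + v * I)).re : ℝ) : ℂ) *
          stripKer (p i) (p j) (u + v * I)) := by
      intro u hu i j
      have c1 : p i - u ∈ Set.Ioo (-π) π ∧ p i ≠ u ∧ p j + u ∈ Set.Ioo 0 π := by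
        rcases hu with rfl | rfl <;>
          refine ⟨⟨?_, ?_⟩, ?_, ?_, ?_⟩ <;>
            linarith [(hp i).1, (hp i).2, (hp j).1, (hp j).2]
      refine (integrable_edge (G := fun w => ((2 * (F w).re : ℝ) : ℂ)) (C := 2 * 2) hk
        c1.1 c1.2.1 c1.2.2
        (Complex.continuous_ofReal.comp (continuous_const.mul
          (Complex.continuous_re.comp hFd.continuous))) (fun v => ?_)).const_mul _
      rw [Complex.norm_real, Real.norm_eq_abs, abs_mul, abs_two]
      have := (Complex.abs_re_le_norm _).trans (hb u v)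
      linarith
    have hpt : ∀ v : ℝ, ((2 * (F ((0 : ℝ) + v * I)).re * Complex.normSq (a v) : ℝ) : ℂ) =
        ∑ i, ∑ j, c i * conj (c j) * (((2 * (F ((0 : ℝ) + v * I)).re : ℝ) : ℂ) *
          stripKer (p i) (p j) ((0 : ℝ) + v * I)) := by
      intro v
      rw [Complex.ofReal_mul _ (Complex.normSq (a v)), ← Complex.mul_conj]
      simp only [ha, map_sum, Finset.mul_sum, Finset.sum_mul]
      rw [Finset.sum_comm]
      refine sum_congr rfl fun i _ => sum_congr rfl fun j _ => ?_
      simp only [stripKer, map_mul, map_inv₀, ← Complex.sin_conj, map_sub, Complex.conj_ofReal,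
        Complex.conj_I, Complex.ofReal_zero, zero_add, mul_neg, sub_neg_eq_add]
      rw [mul_inv]
      ring
    have hpt' : ∀ v : ℝ, ((2 * (F ((π / 2 : ℝ) + v * I)).re * Complex.normSq (b v) : ℝ) : ℂ) =
        -∑ i, ∑ j, c i * conj (c j) * (((2 * (F ((π / 2 : ℝ) + v * I)).re : ℝ) : ℂ) *
          stripKer (p i) (p j) ((π / 2 : ℝ) + v * I)) := by
      intro v
      rw [Complex.ofReal_mul _ (Complex.normSq (b v)), ← Complex.mul_conj]
      simp only [hb', map_sum, Finset.mul_sum, Finset.sum_mul, ← Finset.sum_neg_distrib]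
      rw [Finset.sum_comm]
      refine sum_congr rfl fun i _ => sum_congr rfl fun j _ => ?_
      have e3 : ∀ s : ℝ, Complex.sin ((s : ℂ) - (((π / 2 : ℝ) : ℂ) + v * I)) =
          -Complex.cos ((s : ℂ) - v * I) := fun s => by
        rw [← Complex.sin_sub_pi_div_two]
        congr 1
        push_cast
        ring
      have e4 : ∀ s : ℝ, Complex.sin ((s : ℂ) + (((π / 2 : ℝ) : ℂ) + v * I)) =
          Complex.cos ((s : ℂ) + v * I) := fun s => by
        rw [← Complex.sin_add_pi_div_two]
        congr 1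
        push_cast
        ring
      simp only [stripKer, e3, e4, map_mul, map_inv₀, ← Complex.cos_conj, map_sub,
        Complex.conj_ofReal, Complex.conj_I, mul_neg, sub_neg_eq_add]
      rw [neg_mul, inv_neg, mul_inv]
      ring
    simp only [hpt, hpt', integral_neg]
    rw [integral_finsetSum _ fun i _ => integrable_finsetSum _ fun j _ => hI 0 (Or.inl rfl) i j,
      integral_finsetSum _ fun i _ => integrable_finsetSum _ fun j _ =>
        hI (π / 2) (Or.inr rfl) i j, ← sub_eq_add_neg, Finset.mul_sum, ← Finset.sum_sub_distrib]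
    refine sum_congr rfl fun i _ => ?_
    rw [integral_finsetSum _ fun j _ => hI 0 (Or.inl rfl) i j,
      integral_finsetSum _ fun j _ => hI (π / 2) (Or.inr rfl) i j, Finset.mul_sum,
      ← Finset.sum_sub_distrib]
    refine sum_congr rfl fun j _ => ?_
    rw [integral_const_mul, integral_const_mul]
    linear_combination (c i * conj (c j)) * hrep i j
  have := congrArg Complex.re hsum
  rw [integral_complex_ofReal, integral_complex_ofReal, ← Complex.ofReal_ofNat,
    ← Complex.ofReal_mul, Complex.re_ofReal_mul, Complex.add_re, Complex.ofReal_re,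
    Complex.ofReal_re] at this
  have hx' : t ∈ Set.Icc (0 : ℝ) 1 := ⟨ht.1, ht.2.le⟩
  have h1 : 0 ≤ ∫ v : ℝ, 2 * (F ((0 : ℝ) + v * I)).re * Complex.normSq (a v) :=
    integral_nonneg fun v => mul_nonneg
      (mul_nonneg two_pos.le (stripFun_edges_nonneg hx' hx v).1) (Complex.normSq_nonneg _)
  have h2 : 0 ≤ ∫ v : ℝ, 2 * (F ((π / 2 : ℝ) + v * I)).re * Complex.normSq (b v) :=
    integral_nonneg fun v => mul_nonneg
      (mul_nonneg two_pos.le (stripFun_edges_nonneg hx' hx v).2) (Complex.normSq_nonneg _)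
  nlinarith

end Vale.Agent.P371
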