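import Vale.Agent.P371.LiebThirring
import Vale.Agent.P371.StripKernel

/-!
Positivity of the calibration remainder for matrix potentials.
-/

namespace Vale.Agent.P371

open Finset Matrix Real MeasureTheory Filter Topology
open scoped ComplexOrder ComplexConjugate

/-- Real part of `stripFun` at a real point. -/
noncomputable def uKer (t x p : ℝ) : ℝ :=
  Real.sin (p + x) * Real.cos (t * (p - x)) - Real.sin x * Real.cos x

/-- The kernel at parameter `t`. -/
noncomputable def tKer (t x p q : ℝ) : ℝ :=
  (uKer t x p + uKer t x q) / Real.sin (p + q) - Real.cos (t * (p - q))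

/-- Its average over `t ∈ [0,1]`. -/
noncomputable def uAvg (x p : ℝ) : ℝ :=
  Real.sin (p + x) * sinc (p - x) - Real.sin x * Real.cos x

noncomputable def avgKer (x p q : ℝ) : ℝ :=
  (uAvg x p + uAvg x q) / Real.sin (p + q) - sinc (p - q)

lemma stripFun_real (t x p : ℝ) : stripFun t x p =
    ((Real.sin (p + x) : ℝ) : ℂ) * Complex.exp (((t * (p - x) : ℝ) : ℂ) * Complex.I) -
      ((Real.sin x * Real.cos x : ℝ) : ℂ) := by
  unfold stripFun
  push_cast
  ring_nf

lemma tKer_nonneg {n : ℕ} {t x : ℝ} (ht : t ∈ Set.Ico (0 : ℝ) 1) (hx : x ∈ Set.Ioo 0 (π / 2))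
    (p : Fin n → ℝ) (hp : ∀ i, p i ∈ Set.Ioo 0 (π / 2)) (c : Fin n → ℝ) :
    0 ≤ ∑ i, ∑ j, c i * c j * tKer t x (p i) (p j) := by
  set E : ℝ → ℂ := fun y => Complex.exp (((t * (y - x) : ℝ) : ℂ) * Complex.I) with hE
  have hxx : stripFun t x x = ((Real.sin x * Real.cos x : ℝ) : ℂ) := by
    rw [stripFun_real, sub_self, mul_zero, Complex.ofReal_zero, zero_mul, Complex.exp_zero,
      ← two_mul, Real.sin_two_mul]
    push_cast
    ring
  have hsin : ∀ y, y ∈ Set.Ioo 0 (π / 2) → ∀ z, z ∈ Set.Ioo 0 (π / 2) → Real.sin (y + z) ≠ 0 :=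
    fun y hy z hz => (Real.sin_pos_of_pos_of_lt_pi (by linarith [hy.1, hz.1])
      (by linarith [hy.2, hz.2])).ne'
  have h1 : ∀ y, y ∈ Set.Ioo 0 (π / 2) → pickKernel t x y x = E y := by
    intro y hy
    rw [pickKernel, hxx, Complex.conj_ofReal, stripFun_real, sub_add_cancel,
      mul_div_assoc, mul_comm, div_mul_cancel₀]
    exact Complex.ofReal_ne_zero.mpr (hsin y hy x hx)
  have h2 : ∀ y, y ∈ Set.Ioo 0 (π / 2) → pickKernel t x x y = conj (E y) := by
    intro y hy
    rw [← h1 y hy, pickKernel, pickKernel, map_div₀, map_add, Complex.conj_conj,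
      Complex.conj_ofReal, add_comm x y, add_comm (conj (stripFun t x y)) (stripFun t x x)]
  have h3 : pickKernel t x x x = 1 := by
    rw [h1 x hx]; simp [hE]
  set s : ℂ := -∑ i, (c i : ℂ) * E (p i) with hs
  have key := pickKernel_nonneg (n := n + 1) ht ⟨hx.1.le, hx.2.le⟩
    (Fin.cons x p : Fin (n + 1) → ℝ) (fun i => Fin.cases hx hp i)
    (Fin.cons s fun i => (c i : ℂ))
  simp only [Fin.sum_univ_succ, Fin.cons_zero, Fin.cons_succ, h3,
    h1 _ (hp _), h2 _ (hp _), Complex.conj_ofReal] at key
  have e1 : ∑ j, s * (c j : ℂ) * conj (E (p j)) = -(s * conj s) := by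
    simp only [hs, map_neg, map_sum, map_mul, Complex.conj_ofReal, mul_neg, neg_neg,
      Finset.mul_sum, mul_assoc]
  have e2 : ∑ i, (c i : ℂ) * conj s * E (p i) = -(s * conj s) := by
    rw [show s * conj s = conj s * s from mul_comm _ _]
    nth_rewrite 3 [hs]
    simp only [mul_neg, neg_neg, Finset.mul_sum]
    exact sum_congr rfl fun i _ => by ring
  rw [sum_add_distrib, e1, e2] at key
  have e3 : (s * conj s).re = ∑ i, ∑ j, c i * c j * Real.cos (t * (p i - p j)) := by
    simp only [hs, map_neg, neg_mul_neg, map_sum, map_mul, Complex.conj_ofReal, Finset.mul_sum,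
      Finset.sum_mul, Complex.re_sum]
    rw [sum_comm]
    refine sum_congr rfl fun i _ => sum_congr rfl fun j _ => ?_
    simp only [hE, ← Complex.exp_conj, map_mul, Complex.conj_ofReal, Complex.conj_I]
    rw [show ∀ a b e f : ℂ, a * e * (b * f) = a * b * (e * f) from fun a b e f => by ring,
      ← Complex.exp_add, ← Complex.ofReal_mul, Complex.re_ofReal_mul]
    congr 1
    rw [show ((t * (p i - x) : ℝ) : ℂ) * Complex.I + ((t * (p j - x) : ℝ) : ℂ) * -Complex.I =
      ((t * (p i - p j) : ℝ) : ℂ) * Complex.I by push_cast; ring, Complex.exp_ofReal_mul_I_re]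
  have e4 : (∑ i, ∑ j, (c i : ℂ) * (c j : ℂ) * pickKernel t x (p i) (p j)).re =
      ∑ i, ∑ j, c i * c j * ((uKer t x (p i) + uKer t x (p j)) / Real.sin (p i + p j)) := by
    have hre : ∀ y : ℝ, (stripFun t x y).re = uKer t x y := fun y => by
      rw [stripFun_real, Complex.sub_re, Complex.re_ofReal_mul, Complex.exp_ofReal_mul_I_re,
        Complex.ofReal_re, uKer]
    simp only [Complex.re_sum, ← Complex.ofReal_mul, Complex.re_ofReal_mul, pickKernel,
      Complex.div_ofReal_re, Complex.add_re, Complex.conj_re, hre]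
  simp only [mul_one, Complex.add_re, Complex.neg_re, e3, e4] at key
  have hsplit : ∑ i, ∑ j, c i * c j * tKer t x (p i) (p j) =
      (∑ i, ∑ j, c i * c j * ((uKer t x (p i) + uKer t x (p j)) / Real.sin (p i + p j))) -
        ∑ i, ∑ j, c i * c j * Real.cos (t * (p i - p j)) := by
    simp only [tKer, ← sum_sub_distrib]
    exact sum_congr rfl fun i _ => sum_congr rfl fun j _ => by ring
  rw [hsplit]
  linarith

lemma integral_cos_mul_eq_sinc (δ : ℝ) : ∫ t in (0 : ℝ)..1, Real.cos (t * δ) = sinc δ := by
  rcases eq_or_ne δ 0 with rfl | h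
  · simp
  · rw [intervalIntegral.integral_comp_mul_right Real.cos h, integral_cos, sinc_of_ne_zero h]
    simp [div_eq_inv_mul]

lemma avgKer_nonneg {n : ℕ} {x : ℝ} (hx : x ∈ Set.Ioo 0 (π / 2))
    (p : Fin n → ℝ) (hp : ∀ i, p i ∈ Set.Ioo 0 (π / 2)) (c : Fin n → ℝ) :
    0 ≤ ∑ i, ∑ j, c i * c j * avgKer x (p i) (p j) := by
  set g : ℝ → ℝ := fun t => ∑ i, ∑ j, c i * c j * tKer t x (p i) (p j) with hg
  have hg0 : ∀ t ∈ Set.Icc (0 : ℝ) 1, 0 ≤ g t := by
    intro t ht
    rcases ht.2.lt_or_eq with h | rfl
    · exact tKer_nonneg ⟨ht.1, h⟩ hx p hp c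
    · have hc : Continuous g := by simp only [hg, tKer, uKer]; fun_prop
      refine ge_of_tendsto ((hc.tendsto 1).mono_left (nhdsWithin_le_nhds (s := Set.Iio 1))) ?_
      filter_upwards [Ioo_mem_nhdsLT (zero_lt_one' ℝ)] with s hs
      exact tKer_nonneg ⟨hs.1.le, hs.2⟩ hx p hp c
  have h := intervalIntegral.integral_nonneg (zero_le_one' ℝ) hg0 (μ := volume)
  refine h.trans (le_of_eq ?_)
  have hc : ∀ δ : ℝ, IntervalIntegrable (fun t => Real.cos (t * δ)) volume 0 1 := fun δ =>
    (by fun_prop : Continuous fun t => Real.cos (t * δ)).intervalIntegrable _ _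
  simp only [hg]
  rw [intervalIntegral.integral_finsetSum fun i _ => Continuous.intervalIntegrable
    (by simp only [tKer, uKer]; fun_prop) _ _]
  refine sum_congr rfl fun i _ => ?_
  rw [intervalIntegral.integral_finsetSum fun j _ => Continuous.intervalIntegrable
    (by simp only [tKer, uKer]; fun_prop) _ _]
  refine sum_congr rfl fun j _ => ?_
  rw [intervalIntegral.integral_const_mul]
  congr 1
  simp only [tKer, uKer, avgKer, uAvg]
  rw [intervalIntegral.integral_sub, intervalIntegral.integral_div, intervalIntegral.integral_add,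
    intervalIntegral.integral_sub, intervalIntegral.integral_sub]
  · simp [integral_cos_mul_eq_sinc]
  all_goals exact Continuous.intervalIntegrable (by fun_prop) _ _

/-- Jensen defect of the sine on `[2 a, 2 b]`, in half angles. -/
noncomputable def jdefect (a b : ℝ) : ℝ := Real.sin (a + b) * (sinc (a - b) - Real.cos (a - b))

lemma avgKer_mul_sin {x p q : ℝ} (h : Real.sin (p + q) ≠ 0) :
    avgKer x p q * Real.sin (p + q) = jdefect x p + jdefect x q - jdefect p q := by
  unfold avgKer uAvg jdefect
  rw [sub_mul, div_mul_cancel₀ _ h]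
  have e : ∀ a b : ℝ, Real.sin (a + b) * Real.cos (a - b) =
      Real.sin a * Real.cos a + Real.sin b * Real.cos b := by
    intro a b
    rw [Real.sin_add, Real.cos_sub]
    linear_combination (Real.sin b * Real.cos b) * Real.sin_sq_add_cos_sq a +
      (Real.sin a * Real.cos a) * Real.sin_sq_add_cos_sq b
  rw [← sinc_neg (p - x), ← sinc_neg (q - x), neg_sub, neg_sub, add_comm p x, add_comm q x]
  linear_combination e x p + e x q - e p q

theorem remAll (m : ℕ) : RemAll m := by
  intro N U h hh
  set d : Mat N := Uᴴ * U with hd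
  set p : Fin N → ℝ := fun i => π / 2 * (h i + 1 / 2) with hp'
  have hp : ∀ i, p i ∈ Set.Ioo 0 (π / 2) := fun i => by
    have := Real.pi_pos
    simp only [hp']
    constructor <;> nlinarith [(hh i).1, (hh i).2]
  set s : Fin N → Fin N → ℝ := fun i j => Real.sin (p i + p j) with hs'
  have hs : ∀ i j, 0 < s i j := fun i j => Real.sin_pos_of_pos_of_lt_pi
    (by linarith [(hp i).1, (hp j).1]) (by linarith [(hp i).2, (hp j).2])
  have hsc : ∀ i j, s i j = s j i := fun i j => by simp only [hs', add_comm]
  have hherm : ∀ a b, d b a = conj (d a b) := fun a b =>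
    ((posSemidef_conjTranspose_mul_self U).isHermitian.apply b a).symm
  set w : Fin N → Fin N → Fin N → ℝ := fun i j k =>
    triple d i k j / (s i j * s k j * s i k) with hw
  have hperm1 : ∀ i j k, triple d i k j = triple d j i k := by
    intro i j k
    unfold triple
    congr 1
    ring
  have hperm2 : ∀ i j k, triple d i k j = triple d k i j := by
    intro i j k
    unfold triple
    rw [hherm i j, hherm j k, hherm k i]
    simp only [Complex.mul_re, Complex.mul_im, Complex.conj_re, Complex.conj_im]
    ring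
  have w1 : ∀ i j k, w i j k = w k j i := fun i j k => by
    simp only [hw]
    rw [hperm2 i j k, hsc i k]
    ring_nf
  have w2 : ∀ i j k, w i j k = w j k i := fun i j k => by
    simp only [hw]
    rw [hperm1 i j k, hsc i j, hsc k j, hsc i k]
    ring_nf
  have hpos : ∀ i, 0 ≤ ∑ j, ∑ k,
      (jdefect (p i) (p j) + jdefect (p i) (p k) - jdefect (p j) (p k)) * w i j k := by
    intro i
    set z : Fin m → Fin N → ℂ := fun l j => U l j * d j i / (s i j : ℂ) with hz
    have hq : ∀ l, 0 ≤ ∑ j, ∑ k, avgKer (p i) (p j) (p k) * (conj (z l j) * z l k).re := by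
      intro l
      have e1 := avgKer_nonneg (hp i) p hp fun j => (z l j).re
      have e2 := avgKer_nonneg (hp i) p hp fun j => (z l j).im
      refine le_trans (add_nonneg e1 e2) (le_of_eq ?_)
      simp only [← sum_add_distrib]
      refine sum_congr rfl fun j _ => sum_congr rfl fun k _ => ?_
      simp only [Complex.mul_re, Complex.conj_re, Complex.conj_im]
      ring
    refine le_trans (sum_nonneg fun l (_ : l ∈ univ) => hq l) (le_of_eq ?_)
    rw [sum_comm]
    refine sum_congr rfl fun j _ => ?_
    rw [sum_comm]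
    refine sum_congr rfl fun k _ => ?_
    rw [← mul_sum, ← Complex.re_sum]
    have e : ∑ l, conj (z l j) * z l k =
        (d j k * d k i * d i j) / ((s i j * s i k : ℝ) : ℂ) := by
      have hjk : d j k = ∑ l, conj (U l j) * U l k := by
        simp [hd, Matrix.mul_apply, Complex.star_def]
      rw [hjk, hherm j i, Finset.sum_mul, Finset.sum_mul, Finset.sum_div]
      refine sum_congr rfl fun l _ => ?_
      simp only [hz, map_div₀, map_mul, Complex.conj_ofReal]
      push_cast
      field_simp
    rw [e, Complex.div_ofReal_re, hw]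
    have et : (d j k * d k i * d i j).re = triple d i k j := by
      rw [hperm2 i j k]
      unfold triple
      congr 1
    rw [et, ← avgKer_mul_sin (hs j k).ne', show Real.sin (p j + p k) = s k j from hsc j k]
    have := (hs k j).ne'
    have := (hs i j).ne'
    have := (hs i k).ne'
    field_simp
  have hsum := sum_nonneg fun i (_ : i ∈ (univ : Finset (Fin N))) => hpos i
  simp only [add_mul, sub_mul, sum_add_distrib, sum_sub_distrib] at hsum
  set S := ∑ i, ∑ j, ∑ k, jdefect (p i) (p k) * w i j k with hS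
  have a1 : (∑ i, ∑ j, ∑ k, jdefect (p i) (p j) * w i j k) = S := by
    rw [hS]
    refine sum_congr rfl fun i _ => ?_
    rw [sum_comm]
    refine sum_congr rfl fun j _ => sum_congr rfl fun k _ => ?_
    rw [w2 i k j, w1 k j i]
  have a3 : (∑ i, ∑ j, ∑ k, jdefect (p j) (p k) * w i j k) = S := by
    rw [hS, sum_comm]
    refine sum_congr rfl fun i _ => ?_
    refine sum_congr rfl fun j _ => sum_congr rfl fun k _ => ?_
    rw [w1 j i k, ← w2 j k i, w1 j k i, w2 i k j, w1 k j i]
  rw [a1, a3] at hsum
  have hfin : ∀ i j k, remKernel (h i + h j) (h k + h j) * triple d i k j =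
      π ^ 2 / 4 * (jdefect (p i) (p k) * w i j k) := by
    intro i j k
    have hc : ∀ a b, Real.cos (half (h a + h b)) = s a b := fun a b => by
      have e : half (h a + h b) = (p a + p b) - π / 2 := by unfold half; simp only [hp']; ring
      rw [e, Real.cos_sub_pi_div_two]
    have hδ : half (h i + h j) - half (h k + h j) = p i - p k := by
      unfold half; simp only [hp']; ring
    simp only [remKernel, hc, hδ, jdefect, hw]
    rw [show Real.sin (p i + p k) = s i k from rfl]
    have := (hs i j).ne'
    have := (hs i k).ne'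
    have := (hs k j).ne'
    field_simp
  simp only [hfin, ← mul_sum]
  exact mul_nonneg (by positivity) (by linarith)

end Vale.Agent.P371
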