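import Mathlib

/-!
Linear algebra for the Riccati path: quadratic forms, Frobenius norm, and functions of Hermitian
matrices (continuous functional calculus, Lipschitz bound in the Frobenius norm).
-/

namespace Vale.Agent.P371.Path

open Finset Matrix Filter Topology
open scoped Matrix.Norms.Frobenius ComplexOrder ComplexConjugate

variable {N : ℕ}

/-- Hermitian part. -/
noncomputable def hp (A : (Matrix (Fin N) (Fin N) ℂ)) : (Matrix (Fin N) (Fin N) ℂ) := (1 / 2 : ℂ) • (A + Aᴴ)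

lemma hp_isHermitian (A : (Matrix (Fin N) (Fin N) ℂ)) : (hp A).IsHermitian := by
  simp [hp, Matrix.IsHermitian, add_comm]

lemma hp_of_isHermitian {A : (Matrix (Fin N) (Fin N) ℂ)} (h : A.IsHermitian) : hp A = A := by
  rw [hp, h.eq, ← two_smul ℂ A, smul_smul]
  norm_num

lemma norm_hp_sub_le (A B : (Matrix (Fin N) (Fin N) ℂ)) : ‖hp A - hp B‖ ≤ ‖A - B‖ := by
  have e : hp A - hp B = (1 / 2 : ℂ) • ((A - B) + (A - B)ᴴ) := by
    simp only [hp, conjTranspose_sub]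
    module
  rw [e, norm_smul]
  have h := norm_add_le (A - B) (A - B)ᴴ
  rw [frobenius_norm_conjTranspose] at h
  rw [show ‖(1 / 2 : ℂ)‖ = 1 / 2 by norm_num]
  linarith

lemma continuous_hp : Continuous (hp : (Matrix (Fin N) (Fin N) ℂ) → (Matrix (Fin N) (Fin N) ℂ)) := by
  unfold hp; fun_prop

/-- The real quadratic form of a matrix. -/
def qf (A : (Matrix (Fin N) (Fin N) ℂ)) (v : Fin N → ℂ) : ℝ := (star v ⬝ᵥ A *ᵥ v).re

/-- The squared Euclidean length. -/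
def nsq (v : Fin N → ℂ) : ℝ := (star v ⬝ᵥ v).re

lemma nsq_eq (v : Fin N → ℂ) : nsq v = ∑ i, ‖v i‖ ^ 2 := by
  rw [nsq, dotProduct, Complex.re_sum]
  refine sum_congr rfl fun i _ => ?_
  simp [Pi.star_apply, Complex.conj_mul', ← Complex.ofReal_pow]

lemma nsq_nonneg (v : Fin N → ℂ) : 0 ≤ nsq v := by
  rw [nsq_eq]; positivity

lemma nsq_pos {v : Fin N → ℂ} (h : v ≠ 0) : 0 < nsq v := by
  obtain ⟨i, hi⟩ : ∃ i, v i ≠ 0 := Function.ne_iff.mp h
  rw [nsq_eq]
  exact lt_of_lt_of_le (by positivity)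
    (single_le_sum (f := fun i => ‖v i‖ ^ 2) (fun j _ => by positivity) (mem_univ i))

@[simp] lemma qf_add (A B : (Matrix (Fin N) (Fin N) ℂ)) (v) : qf (A + B) v = qf A v + qf B v := by
  simp [qf, add_mulVec, dotProduct_add]

@[simp] lemma qf_sub (A B : (Matrix (Fin N) (Fin N) ℂ)) (v) : qf (A - B) v = qf A v - qf B v := by
  simp [qf, sub_mulVec, dotProduct_sub]

@[simp] lemma qf_neg (A : (Matrix (Fin N) (Fin N) ℂ)) (v) : qf (-A) v = -qf A v := by
  simp [qf, neg_mulVec]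

@[simp] lemma qf_one (v : Fin N → ℂ) : qf 1 v = nsq v := by
  simp [qf, nsq]

@[simp] lemma qf_smul (r : ℝ) (A : (Matrix (Fin N) (Fin N) ℂ)) (v) : qf (r • A) v = r * qf A v := by
  simp [qf, smul_mulVec, dotProduct_smul, Complex.real_smul]

@[simp] lemma qf_zero (v : Fin N → ℂ) : qf 0 v = 0 := by simp [qf]

lemma qf_mul_of_mulVec {A B : (Matrix (Fin N) (Fin N) ℂ)} {v : Fin N → ℂ} {a : ℝ} (h : B *ᵥ v = a • v) :
    qf (A * B) v = a * qf A v := by
  simp [qf, ← mulVec_mulVec, h, mulVec_smul, Complex.real_smul]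

lemma qf_mul_of_mulVec_left {A B : (Matrix (Fin N) (Fin N) ℂ)} (hA : A.IsHermitian) {v : Fin N → ℂ} {a : ℝ}
    (h : A *ᵥ v = a • v) : qf (A * B) v = a * qf B v := by
  have : star v ᵥ* A = a • star v := by
    conv_lhs => rw [← hA.eq, ← star_mulVec, h]
    simp [star_smul]
  rw [qf, qf, ← mulVec_mulVec, dotProduct_mulVec, this, smul_dotProduct, Complex.real_smul,
    Complex.re_ofReal_mul]

lemma qf_of_mulVec {A : (Matrix (Fin N) (Fin N) ℂ)} {v : Fin N → ℂ} {a : ℝ} (h : A *ᵥ v = a • v) :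
    qf A v = a * nsq v := by
  simp [qf, nsq, h, Complex.real_smul]

lemma qf_mul_self {A : (Matrix (Fin N) (Fin N) ℂ)} (hA : A.IsHermitian) (v : Fin N → ℂ) :
    qf (A * A) v = nsq (A *ᵥ v) := by
  have : star (A *ᵥ v) = star v ᵥ* A := by rw [star_mulVec, hA.eq]
  simp [qf, nsq, this, ← dotProduct_mulVec, mulVec_mulVec]

lemma posSemidef_iff_qf {A : (Matrix (Fin N) (Fin N) ℂ)} :
    A.PosSemidef ↔ A.IsHermitian ∧ ∀ v, 0 ≤ qf A v := by
  refine ⟨fun h => ⟨h.isHermitian, fun v => h.re_dotProduct_nonneg v⟩, fun h => ?_⟩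
  refine PosSemidef.of_dotProduct_mulVec_nonneg h.1 fun v => ?_
  refine Complex.nonneg_iff.mpr ⟨h.2 v, ?_⟩
  have := h.1.im_star_dotProduct_mulVec_self v
  simpa using this.symm

lemma continuous_qf : Continuous fun p : (Matrix (Fin N) (Fin N) ℂ) × (Fin N → ℂ) => qf p.1 p.2 := by
  unfold qf dotProduct mulVec
  simp only [dotProduct]
  fun_prop

/-- Frobenius norm squared. -/
lemma norm_sq_eq (A : (Matrix (Fin N) (Fin N) ℂ)) : ‖A‖ ^ 2 = ∑ i, ∑ j, ‖A i j‖ ^ 2 := by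
  have h : 0 ≤ ∑ i, ∑ j, ‖A i j‖ ^ 2 := by positivity
  rw [frobenius_norm_def, ← Real.sqrt_eq_rpow]
  simp only [Real.rpow_two]
  rw [Real.sq_sqrt h]

lemma norm_sq_eq_trace (A : (Matrix (Fin N) (Fin N) ℂ)) : ‖A‖ ^ 2 = (trace (Aᴴ * A)).re := by
  rw [norm_sq_eq, sum_comm]
  simp only [trace, Matrix.diag, mul_apply, Complex.re_sum, conjTranspose_apply]
  refine sum_congr rfl fun j _ => sum_congr rfl fun i _ => ?_
  simp [Complex.conj_mul', ← Complex.ofReal_pow]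

lemma norm_unitary_mul_mul {U V : (Matrix (Fin N) (Fin N) ℂ)} (hU : Uᴴ * U = 1) (hV : V * Vᴴ = 1) (A : (Matrix (Fin N) (Fin N) ℂ)) :
    ‖U * A * V‖ = ‖A‖ := by
  have h : ‖U * A * V‖ ^ 2 = ‖A‖ ^ 2 := by
    rw [norm_sq_eq_trace, norm_sq_eq_trace]
    congr 1
    calc trace ((U * A * V)ᴴ * (U * A * V))
        = trace (Vᴴ * (Aᴴ * (Uᴴ * U) * A) * V) := by
          simp only [conjTranspose_mul, Matrix.mul_assoc]
      _ = trace (V * Vᴴ * (Aᴴ * (Uᴴ * U) * A)) := by rw [trace_mul_cycle]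
      _ = trace (Aᴴ * A) := by rw [hU, hV]; simp
  exact (pow_left_inj₀ (norm_nonneg _) (norm_nonneg _) two_ne_zero).mp h

section spectral

variable {A : Matrix (Fin N) (Fin N) ℂ} (hA : A.IsHermitian)

lemma eigU_star_mul : (hA.eigenvectorUnitary : (Matrix (Fin N) (Fin N) ℂ))ᴴ * (hA.eigenvectorUnitary : (Matrix (Fin N) (Fin N) ℂ)) = 1 :=
  Unitary.coe_star_mul_self hA.eigenvectorUnitary

lemma eigU_mul_star : (hA.eigenvectorUnitary : (Matrix (Fin N) (Fin N) ℂ)) * (hA.eigenvectorUnitary : (Matrix (Fin N) (Fin N) ℂ))ᴴ = 1 :=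
  Unitary.coe_mul_star_self hA.eigenvectorUnitary

lemma cfc_eq_conj (f : ℝ → ℝ) : cfc f A = (hA.eigenvectorUnitary : (Matrix (Fin N) (Fin N) ℂ)) *
    diagonal (fun i => (f (hA.eigenvalues i) : ℂ)) * (hA.eigenvectorUnitary : (Matrix (Fin N) (Fin N) ℂ))ᴴ := by
  rw [hA.cfc_eq]
  rfl

lemma eq_conj : A = (hA.eigenvectorUnitary : (Matrix (Fin N) (Fin N) ℂ)) *
    diagonal (fun i => (hA.eigenvalues i : ℂ)) * (hA.eigenvectorUnitary : (Matrix (Fin N) (Fin N) ℂ))ᴴ := by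
  conv_lhs => rw [hA.spectral_theorem]
  rfl

/-- The quadratic form of `cfc f A` in eigen-coordinates. -/
lemma qf_cfc (f : ℝ → ℝ) (v : Fin N → ℂ) : qf (cfc f A) v =
    ∑ i, f (hA.eigenvalues i) * ‖((hA.eigenvectorUnitary : (Matrix (Fin N) (Fin N) ℂ))ᴴ *ᵥ v) i‖ ^ 2 := by
  have hw : star ((hA.eigenvectorUnitary : (Matrix (Fin N) (Fin N) ℂ))ᴴ *ᵥ v) =
      star v ᵥ* (hA.eigenvectorUnitary : (Matrix (Fin N) (Fin N) ℂ)) := by
    rw [star_mulVec, conjTranspose_conjTranspose]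
  rw [qf, cfc_eq_conj hA, ← mulVec_mulVec, ← mulVec_mulVec, dotProduct_mulVec, ← hw,
    dotProduct, Complex.re_sum]
  refine sum_congr rfl fun i _ => ?_
  rw [mulVec_diagonal, Pi.star_apply, Complex.star_def, mul_left_comm, Complex.conj_mul',
    ← Complex.ofReal_pow, ← Complex.ofReal_mul, Complex.ofReal_re]

lemma nsq_coord (v : Fin N → ℂ) :
    ∑ i, ‖((hA.eigenvectorUnitary : (Matrix (Fin N) (Fin N) ℂ))ᴴ *ᵥ v) i‖ ^ 2 = nsq v := by
  have h := qf_cfc hA (fun _ => 1) v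
  rw [show cfc (fun _ : ℝ => (1 : ℝ)) A = 1 from cfc_const_one ℝ A hA.isSelfAdjoint] at h
  simpa using h.symm

include hA in
lemma qf_cfc_le {f : ℝ → ℝ} {c : ℝ} (hf : ∀ a, f a ≤ c) (v : Fin N → ℂ) :
    qf (cfc f A) v ≤ c * nsq v := by
  rw [qf_cfc hA, ← nsq_coord hA v, mul_sum]
  exact sum_le_sum fun i _ => mul_le_mul_of_nonneg_right (hf _) (by positivity)

include hA in
lemma le_qf_cfc {f : ℝ → ℝ} {c : ℝ} (hf : ∀ a, c ≤ f a) (v : Fin N → ℂ) :
    c * nsq v ≤ qf (cfc f A) v := by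
  rw [qf_cfc hA, ← nsq_coord hA v, mul_sum]
  exact sum_le_sum fun i _ => mul_le_mul_of_nonneg_right (hf _) (by positivity)

include hA in
lemma cfc_mulVec (f : ℝ → ℝ) {v : Fin N → ℂ} {a : ℝ} (h : A *ᵥ v = a • v) :
    cfc f A *ᵥ v = f a • v := by
  set U : (Matrix (Fin N) (Fin N) ℂ) := (hA.eigenvectorUnitary : (Matrix (Fin N) (Fin N) ℂ))
  set w := Uᴴ *ᵥ v
  have hw : ∀ i, (hA.eigenvalues i : ℂ) * w i = (a : ℂ) * w i := by
    intro i
    have h2 : (Uᴴ * A) *ᵥ v = a • w := by rw [← mulVec_mulVec, h, mulVec_smul]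
    have h3 : Uᴴ * A = diagonal (fun i => (hA.eigenvalues i : ℂ)) * Uᴴ := by
      conv_lhs => rw [eq_conj hA, ← Matrix.mul_assoc, ← Matrix.mul_assoc, eigU_star_mul hA,
        Matrix.one_mul]
    rw [h3, ← mulVec_mulVec] at h2
    have h4 := congrFun h2 i
    rw [mulVec_diagonal, Pi.smul_apply, Complex.real_smul] at h4
    exact h4
  have hd : diagonal (fun i => (f (hA.eigenvalues i) : ℂ)) *ᵥ w = f a • w := by
    ext i
    rw [mulVec_diagonal, Pi.smul_apply, Complex.real_smul]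
    rcases eq_or_ne (w i) 0 with h0 | h0
    · simp [h0]
    · rw [show hA.eigenvalues i = a by exact_mod_cast mul_right_cancel₀ h0 (hw i)]
  rw [cfc_eq_conj hA, ← mulVec_mulVec, ← mulVec_mulVec, hd, mulVec_smul, mulVec_mulVec,
    eigU_mul_star hA, one_mulVec]

include hA in
lemma norm_cfc_le {f : ℝ → ℝ} {c : ℝ} (hf : ∀ a, |f a| ≤ c) :
    ‖cfc f A‖ ≤ Real.sqrt N * c := by
  have hc : 0 ≤ c := (abs_nonneg _).trans (hf 0)
  rw [cfc_eq_conj hA, norm_unitary_mul_mul (eigU_star_mul hA)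
    (by rw [conjTranspose_conjTranspose, eigU_star_mul hA])]
  rw [← sq_le_sq₀ (norm_nonneg _) (by positivity), norm_sq_eq, mul_pow,
    Real.sq_sqrt (Nat.cast_nonneg N)]
  calc ∑ i, ∑ j, ‖diagonal (fun i => (f (hA.eigenvalues i) : ℂ)) i j‖ ^ 2
      = ∑ i, ‖(f (hA.eigenvalues i) : ℂ)‖ ^ 2 := by
        refine sum_congr rfl fun i _ => ?_
        rw [sum_eq_single i (fun j _ hj => by simp [diagonal_apply_ne _ hj.symm]) (by simp)]
        simp
    _ ≤ ∑ _i : Fin N, c ^ 2 := sum_le_sum fun i _ => by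
        rw [Complex.norm_real, Real.norm_eq_abs]
        exact pow_le_pow_left₀ (abs_nonneg _) (hf _) 2
    _ = N * c ^ 2 := by simp

end spectral

/-- A Lipschitz function acts in a Lipschitz way on Hermitian matrices (Frobenius norm). -/
lemma norm_cfc_sub_cfc_le {f : ℝ → ℝ} {L : ℝ} (hf : ∀ a b, |f a - f b| ≤ L * |a - b|)
    {A B : (Matrix (Fin N) (Fin N) ℂ)} (hA : A.IsHermitian) (hB : B.IsHermitian) :
    ‖cfc f A - cfc f B‖ ≤ L * ‖A - B‖ := by
  have hL : 0 ≤ L := by simpa using (abs_nonneg _).trans (hf 1 0)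
  set U : (Matrix (Fin N) (Fin N) ℂ) := (hA.eigenvectorUnitary : (Matrix (Fin N) (Fin N) ℂ))
  set V : (Matrix (Fin N) (Fin N) ℂ) := (hB.eigenvectorUnitary : (Matrix (Fin N) (Fin N) ℂ))
  have key : ∀ g : ℝ → ℝ, ‖cfc g A - cfc g B‖ = ‖Uᴴ * (cfc g A - cfc g B) * V‖ := fun g =>
    (norm_unitary_mul_mul (by rw [conjTranspose_conjTranspose, eigU_mul_star hA])
      (eigU_mul_star hB) _).symm
  have entry : ∀ (g : ℝ → ℝ) i j, (Uᴴ * (cfc g A - cfc g B) * V) i j =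
      ((g (hA.eigenvalues i) - g (hB.eigenvalues j) : ℝ) : ℂ) * (Uᴴ * V) i j := by
    intro g i j
    have : Uᴴ * (cfc g A - cfc g B) * V =
        diagonal (fun i => (g (hA.eigenvalues i) : ℂ)) * (Uᴴ * V) -
          (Uᴴ * V) * diagonal (fun i => (g (hB.eigenvalues i) : ℂ)) := by
      rw [Matrix.mul_sub, Matrix.sub_mul, cfc_eq_conj hA, cfc_eq_conj hB]
      congr 1
      · simp only [← Matrix.mul_assoc, eigU_star_mul hA, Matrix.one_mul, U]
      · simp only [Matrix.mul_assoc, eigU_star_mul hB, Matrix.mul_one, V]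
    rw [this, Matrix.sub_apply, diagonal_mul, mul_diagonal]
    push_cast
    ring
  have hid : ∀ (X : (Matrix (Fin N) (Fin N) ℂ)) (hX : X.IsHermitian), cfc (fun a : ℝ => a) X = X := fun X hX =>
    cfc_id' ℝ X hX.isSelfAdjoint
  have h2 : ‖cfc f A - cfc f B‖ ^ 2 ≤ (L * ‖A - B‖) ^ 2 := by
    conv_rhs => rw [← hid A hA, ← hid B hB]
    rw [key, key, mul_pow, norm_sq_eq, norm_sq_eq, mul_sum]
    refine sum_le_sum fun i _ => ?_
    rw [mul_sum]
    refine sum_le_sum fun j _ => ?_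
    rw [entry, entry, norm_mul, norm_mul, Complex.norm_real, Complex.norm_real,
      Real.norm_eq_abs, Real.norm_eq_abs, mul_pow, mul_pow, ← mul_assoc, ← mul_pow L]
    exact mul_le_mul_of_nonneg_right (pow_le_pow_left₀ (abs_nonneg
      (f (hA.eigenvalues i) - f (hB.eigenvalues j))) (hf _ _) 2)
      (sq_nonneg _)
  exact (sq_le_sq₀ (norm_nonneg _) (by positivity)).mp h2

lemma cfc_min_sq_eq {A : (Matrix (Fin N) (Fin N) ℂ)} (hA : A.IsHermitian) {R : ℝ}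
    (h1 : ((R • 1 : (Matrix (Fin N) (Fin N) ℂ)) - A).PosSemidef) (h2 : ((R • 1 : (Matrix (Fin N) (Fin N) ℂ)) + A).PosSemidef) :
    cfc (fun a : ℝ => min (a ^ 2) (R ^ 2)) A = A * A := by
  have hb : ∀ i, hA.eigenvalues i ^ 2 ≤ R ^ 2 := by
    intro i
    set v : Fin N → ℂ := ⇑(hA.eigenvectorBasis i)
    have hv : A *ᵥ v = hA.eigenvalues i • v := hA.mulVec_eigenvectorBasis i
    have hn : v ≠ 0 := fun h => hA.eigenvectorBasis.orthonormal.ne_zero i (by ext j; exact congrFun h j)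
    have p := nsq_pos hn
    have a1 := (posSemidef_iff_qf.mp h1).2 v
    have a2 := (posSemidef_iff_qf.mp h2).2 v
    simp only [qf_sub, qf_add, qf_smul, qf_one, qf_of_mulVec hv] at a1 a2
    exact sq_le_sq' (by nlinarith) (by nlinarith)
  have h : A * A = cfc (fun a : ℝ => a ^ 2) A := by
    rw [cfc_pow_id A 2 hA.isSelfAdjoint, pow_two]
  rw [h, cfc_eq_conj hA, cfc_eq_conj hA]
  congr 2
  exact diagonal_injective.eq_iff.mpr (funext fun i => by rw [min_eq_left (hb i)])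

end Vale.Agent.P371.Path
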