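import Vale.Agent.P371.PathAlg

/-!
A comparison principle for differentiable Hermitian matrix paths.
-/

namespace Vale.Agent.P371.Path

open Finset Matrix Filter Topology Set
open scoped Matrix.Norms.Frobenius ComplexOrder ComplexConjugate

variable {N : ℕ}

lemma hasDerivWithinAt_qf {P : ℝ → (Matrix (Fin N) (Fin N) ℂ)} {P' : (Matrix (Fin N) (Fin N) ℂ)} {s : Set ℝ} {x : ℝ}
    (h : HasDerivWithinAt P P' s x) (v : Fin N → ℂ) :
    HasDerivWithinAt (fun t => qf (P t) v) (qf P' v) s x := by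
  let l : (Matrix (Fin N) (Fin N) ℂ) →ₗ[ℝ] ℝ :=
    { toFun := fun A => qf A v
      map_add' := fun A B => qf_add A B v
      map_smul' := fun r A => qf_smul r A v }
  exact l.toContinuousLinearMap.hasFDerivAt.comp_hasDerivWithinAt x h

lemma continuousOn_qf {X : Type*} [TopologicalSpace X] {f : X → (Matrix (Fin N) (Fin N) ℂ)} {g : X → Fin N → ℂ}
    {s : Set X} (hf : ContinuousOn f s) (hg : ContinuousOn g s) :
    ContinuousOn (fun x => qf (f x) (g x)) s := by
  have hij : ∀ i j, ContinuousOn (fun x => f x i j) s := fun i j =>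
    Continuous.comp_continuousOn (g := fun A : (Matrix (Fin N) (Fin N) ℂ) => A i j) (continuous_id.matrix_elem i j) hf
  have hgi : ∀ i, ContinuousOn (fun x => g x i) s := fun i =>
    (continuous_apply i).comp_continuousOn hg
  simp only [qf, dotProduct, Matrix.mulVec, Pi.star_apply]
  exact Complex.continuous_re.comp_continuousOn (continuousOn_finsetSum _ fun i _ =>
    (hgi i).star.mul (continuousOn_finsetSum _ fun j _ => (hij i j).mul (hgi j)))

/-- If a Hermitian path starts positive semidefinite and its derivative is nonnegative on every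
negative eigendirection, then it stays positive semidefinite. -/
theorem nonneg_of_touch {P P' : ℝ → (Matrix (Fin N) (Fin N) ℂ)} {a b : ℝ}
    (hd : ∀ x ∈ Icc a b, HasDerivWithinAt P (P' x) (Icc a b) x)
    (hH : ∀ x ∈ Icc a b, (P x).IsHermitian) (h0 : (P a).PosSemidef)
    (hk : ∀ x ∈ Icc a b, ∀ v : Fin N → ℂ, ∀ s : ℝ, 0 < s → P x *ᵥ v = (-s) • v →
      0 ≤ qf (P' x) v) :
    ∀ x ∈ Icc a b, (P x).PosSemidef := by
  intro x hx
  refine posSemidef_iff_qf.mpr ⟨hH x hx, fun v => ?_⟩
  by_contra hneg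
  push Not at hneg
  have hv : v ≠ 0 := fun h => by simp [h, qf] at hneg
  have hpv := nsq_pos hv
  obtain ⟨δ, hδ, hδv⟩ : ∃ δ, 0 < δ ∧ qf (P x) v + δ * (x - a + 1) * nsq v < 0 := by
    have hc : 0 < (x - a + 1) * nsq v := mul_pos (by linarith [hx.1]) hpv
    refine ⟨-qf (P x) v / (2 * ((x - a + 1) * nsq v)),
      div_pos (by linarith) (by linarith), ?_⟩
    have e : -qf (P x) v / (2 * ((x - a + 1) * nsq v)) * (x - a + 1) * nsq v =
        -qf (P x) v / 2 := by
      rw [mul_assoc, div_mul_eq_mul_div,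
        mul_div_mul_right _ _ hc.ne']
    linarith
  set F : ℝ × (Fin N → ℂ) → ℝ := fun p => qf (P p.1) p.2 + δ * (p.1 - a + 1) * nsq p.2 with hF
  set D : Set (ℝ × (Fin N → ℂ)) := Icc a b ×ˢ Metric.sphere 0 1 with hD
  have hPc : ContinuousOn P (Icc a b) := fun t ht => (hd t ht).continuousWithinAt
  have hFc : ContinuousOn F D := by
    refine ContinuousOn.add ?_ ?_
    · have h1 : ContinuousOn (fun p : ℝ × (Fin N → ℂ) => (P p.1, p.2)) D :=
        ContinuousOn.prodMk (ContinuousOn.comp (g := P) (f := Prod.fst) hPc continuousOn_fst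
          fun p hp => hp.1) continuousOn_snd
      exact continuousOn_qf h1.fst h1.snd
    · refine (Continuous.continuousOn ?_)
      unfold nsq dotProduct
      fun_prop
  have hDc : IsCompact D := isCompact_Icc.prod (isCompact_sphere _ _)
  set S : Set (ℝ × (Fin N → ℂ)) := D ∩ F ⁻¹' Iic 0 with hS
  have hSc : IsCompact S :=
    hDc.of_isClosed_subset (hFc.preimage_isClosed_of_isClosed hDc.isClosed isClosed_Iic)
      inter_subset_left
  have hscale : ∀ (t : ℝ) (r : ℝ) (w : Fin N → ℂ), F (t, r • w) = r ^ 2 * F (t, w) := by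
    intro t r w
    simp [hF, qf, nsq, mulVec_smul, smul_dotProduct, dotProduct_smul, star_smul,
      Complex.real_smul]
    ring
  have hSne : S.Nonempty := by
    refine ⟨(x, ‖v‖⁻¹ • v), ⟨hx, ?_⟩, ?_⟩
    · simp [norm_smul, hv]
    · show F _ ≤ 0
      rw [hscale]
      exact mul_nonpos_of_nonneg_of_nonpos (sq_nonneg _) hδv.le
  obtain ⟨⟨x0, v0⟩, hmem, hmin⟩ := hSc.exists_isMinOn hSne continuousOn_fst
  have hx0 : x0 ∈ Icc a b := hmem.1.1
  have hv0 : v0 ≠ 0 := by
    intro h; have := hmem.1.2; simp [h] at this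
  have hpv0 := nsq_pos hv0
  have hbefore : ∀ t ∈ Icc a b, t < x0 → ∀ w : Fin N → ℂ, w ≠ 0 → 0 < F (t, w) := by
    intro t ht htx w hw
    by_contra h
    push Not at h
    have : (t, ‖w‖⁻¹ • w) ∈ S := by
      refine ⟨⟨ht, by simp [norm_smul, hw]⟩, ?_⟩
      show F _ ≤ 0
      rw [hscale]
      exact mul_nonpos_of_nonneg_of_nonpos (sq_nonneg _) h
    exact absurd (hmin this) (not_le.mpr htx)
  have hFv0 : F (x0, v0) ≤ 0 := hmem.2
  have hax0 : a < x0 := by
    rcases lt_or_eq_of_le hx0.1 with h | h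
    · exact h
    · exfalso
      have := (posSemidef_iff_qf.mp h0).2 v0
      subst h
      simp only [hF, sub_self, zero_add, mul_one] at hFv0
      nlinarith
  have hsub : Ioo a x0 ⊆ Icc a b := fun t ht => ⟨ht.1.le, ht.2.le.trans hx0.2⟩
  have : (𝓝[Ioo a x0] x0).NeBot := right_nhdsWithin_Ioo_neBot hax0
  have hder : ∀ w : Fin N → ℂ, HasDerivWithinAt (fun t => F (t, w))
      (qf (P' x0) w + δ * nsq w) (Ioo a x0) x0 := by
    intro w
    have h1 := hasDerivWithinAt_qf ((hd x0 hx0).mono hsub) w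
    have h2 : HasDerivWithinAt (fun t : ℝ => δ * (t - a + 1) * nsq w) (δ * nsq w) (Ioo a x0) x0 := by
      simpa using ((((hasDerivWithinAt_id x0 (Ioo a x0)).sub_const a).add_const 1).const_mul
        δ).mul_const (nsq w)
    exact h1.add h2
  have hnn : ∀ w : Fin N → ℂ, 0 ≤ F (x0, w) := by
    intro w
    rcases eq_or_ne w 0 with rfl | hw
    · simp [hF, qf, nsq]
    refine ge_of_tendsto (hder w).continuousWithinAt ?_
    filter_upwards [self_mem_nhdsWithin] with t ht
    exact (hbefore t (hsub ht) ht.2 w hw).le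
  have hz : F (x0, v0) = 0 := le_antisymm hFv0 (hnn v0)
  set s : ℝ := δ * (x0 - a + 1) with hs
  have hs0 : 0 < s := mul_pos hδ (by linarith)
  have hPs : (P x0 + s • (1 : (Matrix (Fin N) (Fin N) ℂ))).PosSemidef := by
    refine posSemidef_iff_qf.mpr ⟨(hH x0 hx0).add ?_, fun w => ?_⟩
    · simp [Matrix.IsHermitian]
    · simpa [hF] using hnn w
  have hker : P x0 *ᵥ v0 = (-s) • v0 := by
    have h1 : (star v0 ⬝ᵥ (P x0 + s • (1 : (Matrix (Fin N) (Fin N) ℂ))) *ᵥ v0) = 0 := by
      have hre : qf (P x0 + s • (1 : (Matrix (Fin N) (Fin N) ℂ))) v0 = 0 := by simpa [hF] using hz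
      have him := hPs.isHermitian.im_star_dotProduct_mulVec_self v0
      exact Complex.ext hre (by simpa using him)
    have h2 := (hPs.dotProduct_mulVec_zero_iff v0).mp h1
    rw [add_mulVec, smul_mulVec, one_mulVec] at h2
    rw [neg_smul]
    exact eq_neg_of_add_eq_zero_left h2
  have hle : qf (P' x0) v0 + δ * nsq v0 ≤ 0 := by
    refine le_of_tendsto ((hasDerivWithinAt_iff_tendsto_slope' (by simp)).mp (hder v0)) ?_
    filter_upwards [self_mem_nhdsWithin] with t ht
    rw [slope_def_field]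
    exact div_nonpos_of_nonneg_of_nonpos
      (by linarith [hbefore t (hsub ht) ht.2 v0 hv0, hz]) (by linarith [ht.2])
  nlinarith [hk x0 hx0 v0 s hs0 hker, mul_pos hδ hpv0]

/-- The same principle, backwards in time. -/
theorem nonneg_of_touch_rev {P P' : ℝ → (Matrix (Fin N) (Fin N) ℂ)} {a b : ℝ}
    (hd : ∀ x ∈ Icc a b, HasDerivWithinAt P (P' x) (Icc a b) x)
    (hH : ∀ x ∈ Icc a b, (P x).IsHermitian) (h0 : (P b).PosSemidef)
    (hk : ∀ x ∈ Icc a b, ∀ v : Fin N → ℂ, ∀ s : ℝ, 0 < s → P x *ᵥ v = (-s) • v →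
      qf (P' x) v ≤ 0) :
    ∀ x ∈ Icc a b, (P x).PosSemidef := by
  have hmaps : ∀ t ∈ Icc a b, a + b - t ∈ Icc a b := fun t ht =>
    ⟨by linarith [ht.2], by linarith [ht.1]⟩
  have key := nonneg_of_touch (P := fun t => P (a + b - t)) (P' := fun t => -P' (a + b - t))
    (a := a) (b := b)
    (fun t ht => by
      have := (hd _ (hmaps t ht)).scomp t
        ((hasDerivWithinAt_id t (Icc a b)).const_sub (a + b)) hmaps
      simp only [Function.comp_def, neg_smul, one_smul] at this
      exact this)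
    (fun t ht => hH _ (hmaps t ht)) (by simpa using h0)
    (fun t ht v s hs hv => by simpa using hk _ (hmaps t ht) v s hs hv)
  intro x hx
  simpa using key _ (hmaps x hx)

end Vale.Agent.P371.Path
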