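import Vale.Agent.P371.LiebThirring

/-!
Positivity of the remainder for scalar potentials.
-/

namespace Vale.Agent.P371

open Finset Matrix
open scoped ComplexOrder

lemma remAll_one : RemAll 1 := by
  intro N U h hh
  refine sum_nonneg fun i _ => sum_nonneg fun j _ => sum_nonneg fun k _ => mul_nonneg ?_ ?_
  · have hi := hh i; have hj := hh j; have hk := hh k
    exact remKernel_nonneg ⟨by linarith [hi.1, hj.1], by linarith [hi.2, hj.2]⟩
      ⟨by linarith [hk.1, hj.1], by linarith [hk.2, hj.2]⟩
  · simp only [triple, Matrix.mul_apply, conjTranspose_apply, Fin.sum_univ_one]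
    have e : star (U 0 j) * U 0 i * (star (U 0 i) * U 0 k) * (star (U 0 k) * U 0 j) =
        ((Complex.normSq (U 0 i) * Complex.normSq (U 0 j) * Complex.normSq (U 0 k) : ℝ) : ℂ) := by
      push_cast
      rw [← Complex.mul_conj, ← Complex.mul_conj, ← Complex.mul_conj, Complex.star_def]
      ring
    rw [e, Complex.ofReal_re]
    exact mul_nonneg (mul_nonneg (Complex.normSq_nonneg _) (Complex.normSq_nonneg _))
      (Complex.normSq_nonneg _)

end Vale.Agent.P371
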